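import Vale.Agent.P095.Amen.Mixture.Induct

/-!
# P095: the mixture lemma
-/

namespace Vale.Agent.P095.Amen.Mixture

open Vale.Agent.P101.KR Finset

noncomputable section

variable {F : Type} [CStarAlgebra F]

lemma sqLe_zero_star {a : F} (h : SqLe 0 a) : IsSelfAdjoint a := by
  obtain ⟨c, hc⟩ := h
  rw [sub_zero] at hc
  exact hc ▸ IsSelfAdjoint.star_mul_self c

lemma spectrum_unit {T : F} (h0 : SqLe 0 T) (h1 : SqLe T 1) :
    ∀ t ∈ spectrum ℝ T, 0 ≤ t ∧ t ≤ 1 := by
  intro t ht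
  obtain ⟨c, hc⟩ := h0
  obtain ⟨c', hc'⟩ := h1
  rw [sub_zero] at hc
  refine ⟨spectrum_star_mul_self_nonneg t (hc ▸ ht), ?_⟩
  have : (1 : ℝ) - t ∈ spectrum ℝ (algebraMap ℝ F 1 - T) := by
    rw [← spectrum.singleton_sub_eq]
    exact Set.sub_mem_sub rfl ht
  rw [map_one, hc'] at this
  linarith [spectrum_star_mul_self_nonneg _ this]

lemma coe_cfc_cl (s : Set F) (f : ℝ → ℝ) (hf : Continuous f) {a : Cl s} (ha : IsSelfAdjoint a) :
    ((cfc f a : Cl s) : F) = cfc f (a : F) :=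
  (Cl s).subtype.map_cfc (R := ℝ) f a hf.continuousOn continuous_subtype_val ha (ha.map (Cl s).subtype)

lemma coe_cut (s : Set F) (δ : ℝ) {a : Cl s} (ha : IsSelfAdjoint a) :
    ((cut δ a : Cl s) : F) = cut δ (a : F) :=
  coe_cfc_cl s _ (by fun_prop) ha

lemma coe_bump (s : Set F) (η : ℝ) {a : Cl s} (ha : IsSelfAdjoint a) :
    ((bump η a : Cl s) : F) = bump η (a : F) :=
  coe_cfc_cl s _ (by fun_prop) ha

lemma cfc_mem_cl (s : Set F) (f : ℝ → ℝ) (hf : Continuous f) {a : F} (ha : a ∈ Cl s)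
    (h : IsSelfAdjoint a) : cfc f a ∈ Cl s := by
  rw [← coe_cfc_cl s f hf (a := ⟨a, ha⟩) (Subtype.ext h.star_eq)]
  exact (cfc f (⟨a, ha⟩ : Cl s)).2

lemma isSelfAdjoint_coe {s : Set F} {a : Cl s} (h : IsSelfAdjoint (a : F)) : IsSelfAdjoint a :=
  Subtype.ext h.star_eq

/-- A bank takes `Cl s` into any closed algebra containing the images of the generators. -/
lemma bank_mem {s s' : Set F} (φ : Cl s →⋆ₐ[ℂ] F)
    (h : ∀ b : Cl s, (b : F) ∈ s → φ b ∈ Cl s') (b : Cl s) : φ b ∈ Cl s' := by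
  set Sg : Set (Cl s) := {b | φ b ∈ Cl s'}
  have hclosed : IsClosed Sg :=
    (isClosed_Cl s' : IsClosed (Cl s' : Set F)).preimage (AddMonoidHomClass.continuous_of_bound φ 1 fun b => by
      simpa using NonUnitalStarAlgHom.norm_apply_le φ b)
  have hgen : ∀ x (hx : x ∈ StarAlgebra.adjoin ℂ s),
      (⟨x, StarSubalgebra.le_topologicalClosure _ hx⟩ : Cl s) ∈ Sg := by
    intro x hx
    induction hx using StarAlgebra.adjoin_induction with
    | mem x hx => exact h _ hx
    | algebraMap r =>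
      have : φ (algebraMap ℂ (Cl s) r) ∈ Cl s' := by
        rw [AlgHomClass.commutes]
        exact algebraMap_mem _ r
      exact this
    | add x y hx hy ihx ihy =>
      have := add_mem (s := Cl s') ihx ihy
      rw [← map_add] at this
      exact this
    | mul x y hx hy ihx ihy =>
      have := mul_mem (s := Cl s') ihx ihy
      rw [← map_mul] at this
      exact this
    | star x hx ihx =>
      have := star_mem (s := Cl s') ihx
      rw [← map_star] at this
      exact this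
  have hb : b ∈ closure Sg := by
    rw [closure_subtype]
    refine closure_mono ?_ b.2
    intro x hx
    exact ⟨⟨x, StarSubalgebra.le_topologicalClosure _ hx⟩, hgen x hx, rfl⟩
  rwa [hclosed.closure_eq] at hb

/-- `(ψ - 1/4)₊`. -/
def yfun (ψ : ℝ → ℝ) (t : ℝ) : ℝ := max (ψ t - 1 / 4) 0

/-- The normaliser of `yfun ψ` where it is at least `1/4`. -/
def nfun (ψ : ℝ → ℝ) (t : ℝ) : ℝ := 1 / Real.sqrt (max (yfun ψ t) (1 / 4))

lemma continuous_yfun {ψ : ℝ → ℝ} (h : Continuous ψ) : Continuous (yfun ψ) := by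
  unfold yfun; fun_prop

lemma continuous_nfun {ψ : ℝ → ℝ} (h : Continuous ψ) : Continuous (nfun ψ) := by
  have := continuous_yfun h
  exact continuous_const.div (Real.continuous_sqrt.comp (this.max continuous_const)) fun t =>
    (Real.sqrt_pos.2 (lt_max_of_lt_right (by norm_num))).ne'

lemma cut_cfc {ψ : ℝ → ℝ} (hψc : Continuous ψ) {S : F} (hS : IsSelfAdjoint S) :
    cut (1 / 4) (cfc ψ S) = cfc (yfun ψ) S := by
  rw [cut, ← cfc_comp' (fun t => max (t - 1 / 4) 0) ψ S (by fun_prop) hψc.continuousOn]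
  rfl

lemma posIn_yfun {ψ : ℝ → ℝ} (hψc : Continuous ψ) {s : Set F} {S : F} (hS : S ∈ Cl s)
    (hSsa : IsSelfAdjoint S) : PosIn (Cl s) (cfc (yfun ψ) S) := by
  have hy := continuous_yfun hψc
  refine ⟨cfc_mem_cl s _ hy hS hSsa, cfc (fun t => Real.sqrt (yfun ψ t)) S,
    cfc_mem_cl s _ (by fun_prop) hS hSsa, ?_⟩
  rw [IsSelfAdjoint.cfc.star_eq, ← cfc_mul _ _ S (by fun_prop) (by fun_prop)]
  exact cfc_congr fun t _ => (Real.mul_self_sqrt (le_max_right _ _)).symm

lemma exists_radius {R : ℕ} {τ μ : ℝ} (h : (R : ℝ) * τ < μ) :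
    ∃ N : ℕ, 1 ≤ N ∧ (R : ℝ) * (τ + 1 / N) < μ := by
  have hμτ : 0 < μ - R * τ := by linarith
  obtain ⟨N, hN⟩ := exists_nat_gt ((R : ℝ) / (μ - R * τ))
  have hNp : (0 : ℝ) < N := lt_of_le_of_lt (by positivity) hN
  refine ⟨N, by exact_mod_cast hNp, ?_⟩
  rw [div_lt_iff₀ hμτ] at hN
  have h3 : (R : ℝ) * (1 / N) < μ - R * τ := by
    rw [mul_one_div, div_lt_iff₀ hNp, mul_comm]
    exact hN
  rw [mul_add]
  linarith

/-- Where the sum is near `G`, the cut of `ψ` is invertible on a localised product. -/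
lemma localised_fix {E : Type} [CStarAlgebra E] {R : ℕ} {φ : Fin R → E →⋆ₐ[ℂ] F} (hφ : Banks φ)
    {T : E} {w : Fin R → E} {val : Fin R → ℝ} {r C μ : ℝ} (hr : 0 ≤ r) (hC : 0 ≤ C)
    (hRr : (R : ℝ) * r < μ) (hloc : ∀ j, Loc T (w j) (val j) r C)
    (hS : IsSelfAdjoint (∑ j, φ j T : F)) {ψ : ℝ → ℝ} (hψc : Continuous ψ)
    (hG : ∀ t, |t - ∑ j, val j| ≤ μ → 1 / 2 ≤ ψ t) :
    cfc (nfun ψ) (∑ j, φ j T) * cfc (yfun ψ) (∑ j, φ j T) * cfc (nfun ψ) (∑ j, φ j T) * bp φ w =
      bp φ w := by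
  set S := (∑ j, φ j T : F)
  set g0 := ∑ j, val j
  have hrf := continuous_nfun hψc
  have hyf := continuous_yfun hψc
  set hfun : ℝ → ℝ := fun t => nfun ψ (t + g0) * yfun ψ (t + g0) * nfun ψ (t + g0) - 1 with hhfun
  have hu : (∑ j, (φ j T - algebraMap ℝ F (val j))) = cfc (fun t : ℝ => t - g0) S := by
    rw [sum_sub_distrib, ← map_sum, cfc_sub (fun t : ℝ => t) (fun _ => g0) S, cfc_id' ℝ S,
      cfc_const g0 S]
  have e1 : ∀ t, hfun t = yfun ψ (t + g0) / max (yfun ψ (t + g0)) (1 / 4) - 1 := fun t => by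
    have hm : 0 < max (yfun ψ (t + g0)) (1 / 4) := lt_max_of_lt_right (by norm_num)
    simp only [hhfun, nfun]
    rw [mul_comm (1 / Real.sqrt _) (yfun ψ (t + g0)), mul_assoc, div_mul_div_comm, one_mul,
      Real.mul_self_sqrt hm.le, mul_one_div]
  have hz : cfc hfun (cfc (fun t : ℝ => t - g0) S) * bp φ w = 0 := by
    rw [← hu]
    refine loc_zero ?_ (by positivity : (0 : ℝ) ≤ (R : ℝ) * r) hRr
      (fun n => bp_loc T hr hC hφ w val hloc n) (by fun_prop) (M := 1) ?_ ?_
    · rw [hu]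
      exact IsSelfAdjoint.cfc
    · intro t
      have hm : 0 < max (yfun ψ (t + g0)) (1 / 4) := lt_max_of_lt_right (by norm_num)
      have h1 : 0 ≤ yfun ψ (t + g0) / max (yfun ψ (t + g0)) (1 / 4) :=
        div_nonneg (le_max_right _ _) hm.le
      have h2 : yfun ψ (t + g0) / max (yfun ψ (t + g0)) (1 / 4) ≤ 1 :=
        (div_le_one hm).2 (le_max_left _ _)
      rw [e1, abs_le]
      constructor <;> linarith
    · intro t ht
      have hψg := hG (t + g0) (by rwa [add_sub_cancel_right])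
      have hY4 : 1 / 4 ≤ yfun ψ (t + g0) := le_max_of_le_left (by linarith)
      rw [e1, max_eq_left hY4, div_self (by linarith), sub_self]
  rw [← cfc_comp' hfun (fun t : ℝ => t - g0) S (by fun_prop) (by fun_prop)] at hz
  have e2 : cfc (fun t => hfun (t - g0)) S =
      cfc (nfun ψ) S * cfc (yfun ψ) S * cfc (nfun ψ) S - 1 := by
    rw [← cfc_mul (nfun ψ) (yfun ψ) S hrf.continuousOn hyf.continuousOn,
      ← cfc_mul (fun t => nfun ψ t * yfun ψ t) (nfun ψ) S (by fun_prop) hrf.continuousOn,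
      ← cfc_const_one ℝ S, ← cfc_sub (fun t => nfun ψ t * yfun ψ t * nfun ψ t) (fun _ => (1 : ℝ)) S
        (by fun_prop) continuousOn_const]
    simp only [hhfun, sub_add_cancel]
  rw [e2, sub_mul, one_mul, sub_eq_zero] at hz
  exact hz

/-- Products over commuting banks of full elements are full. -/
lemma full_banks {E : Type} [CStarAlgebra E] :
    ∀ (m : ℕ) (φ : Fin m → E →⋆ₐ[ℂ] F), Banks φ → ∀ w : Fin m → E,
      (∀ j, ∃ (n : ℕ) (z : Fin n → E), ∑ i, star (z i) * (star (w j) * w j) * z i = 1) →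
      ∃ (n : ℕ) (z : Fin n → F), ∑ i, star (z i) * (star (bp φ w) * bp φ w) * z i = 1 := by
  intro m
  induction m with
  | zero => exact fun φ _ w _ => ⟨1, fun _ => 1, by simp [bp_zero]⟩
  | succ m ih =>
    intro φ hφ w hw
    obtain ⟨n1, z1, h1⟩ := hw 0
    obtain ⟨n2, z2, h2⟩ := ih _ hφ.tail (fun j => w j.succ) fun j => hw j.succ
    set V := bp (fun j => φ j.succ) fun j => w j.succ with hV
    refine ⟨n1 * n2, fun i => φ 0 (z1 (finProdFinEquiv.symm i).1) *
      z2 (finProdFinEquiv.symm i).2, ?_⟩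
    rw [← finProdFinEquiv.sum_comp, Fintype.sum_prod_type, sum_comm]
    simp only [Equiv.symm_apply_apply]
    refine Eq.trans (sum_congr rfl fun i2 _ => ?_) h2
    have h3 : ∀ b, Commute (φ 0 b) V := fun b => hφ.head b _
    have h4 : ∀ b, Commute (φ 0 b) (star V) := fun b => by
      have := (hφ.head (star b) fun j => w j.succ).star_star
      rwa [← map_star, star_star] at this
    calc ∑ i1, star (φ 0 (z1 i1) * z2 i2) * (star (bp φ w) * bp φ w) * (φ 0 (z1 i1) * z2 i2)
        = ∑ i1, sq (φ 0 (w 0 * z1 i1) * (V * z2 i2)) := by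
          refine sum_congr rfl fun i1 _ => ?_
          rw [show star (φ 0 (z1 i1) * z2 i2) * (star (bp φ w) * bp φ w) * (φ 0 (z1 i1) * z2 i2) =
            sq (bp φ w * (φ 0 (z1 i1) * z2 i2)) by simp only [sq, star_mul, mul_assoc]]
          congr 1
          rw [bp_succ, ← hV, map_mul]
          simp only [mul_assoc]
          rw [← mul_assoc V, ← (h3 (z1 i1)).eq]
          simp only [mul_assoc]
      _ = star (V * z2 i2) * φ 0 (∑ i1, star (z1 i1) * (star (w 0) * w 0) * z1 i1) * (V * z2 i2) := by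
          rw [map_sum, Finset.mul_sum, Finset.sum_mul]
          refine sum_congr rfl fun i1 _ => ?_
          simp only [sq, star_mul, map_mul, map_star, mul_assoc]
      _ = star (z2 i2) * (star V * V) * z2 i2 := by
          rw [h1, map_one, mul_one]
          simp only [star_mul, mul_assoc]

/-- The bound before the gaps are sent to zero. -/
lemma dim_bound {s s' : Set F} {R : ℕ} (κ : Copies (Cl s) F R) (hκ : ∀ j b, κ.hom j b ∈ Cl s')
    {T wh wl : Cl s} {x y θ τ μ δ c : ℝ} {G : Set ℝ} {ψ : ℝ → ℝ} (hT0 : SqLe 0 (T : F))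
    (hT1 : SqLe (T : F) 1) (hτ : 0 < τ) (hτ' : τ < 1 / 4) (hδ : 0 < δ) (hx : 0 ≤ x) (hy : 0 ≤ y)
    (hxy : x + y < 1) (hθ : 0 ≤ θ) (hRτ : (R : ℝ) * τ < μ)
    (hwh : bump (1 - τ) T * wh = wh) (hwl : bump (1 - τ) (1 - T) * wl = wl)
    (hd : ∀ D : Dim (Cl s), x ≤ D.d (cut δ (sq (wh : F))) ∧ D.d (sq (wh : F)) ≤ x + θ ∧
      y ≤ D.d (cut δ (sq (wl : F))) ∧ D.d (sq (wl : F)) ≤ y + θ)
    (hψc : Continuous ψ) (hG : ∀ g ∈ G, ∀ t, |t - g| ≤ μ → 1 / 2 ≤ ψ t)
    (hc : ∀ v : Fin R → ℝ, (∀ j, 0 ≤ v j ∧ v j ≤ 1) → c ≤ prob3 x y v G)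
    (d : Dim (Cl s')) {K : ℕ} (hK : 1 ≤ K) :
    c - R * (2 * θ + 1 / K) / (1 - x - y) ≤ d.d (cut (1 / 4) (cfc ψ (∑ j, κ.hom j T : F))) := by
  classical
  set q := 1 - x - y with hqdef
  have hq : 0 < q := by linarith
  have hTsa : IsSelfAdjoint T := isSelfAdjoint_coe (sqLe_zero_star hT0)
  have hSsa : IsSelfAdjoint (∑ j, κ.hom j T : F) :=
    isSelfAdjoint_sum _ fun j _ => hTsa.map (κ.hom j)
  have hS : (∑ j, κ.hom j T : F) ∈ Cl s' := sum_mem fun j _ => hκ j T
  set S := (∑ j, κ.hom j T : F) with hSdef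
  rw [cut_cfc hψc hSsa]
  set yf : ℝ → ℝ := yfun ψ
  have hYpos : PosIn (Cl s') (cfc yf S) := posIn_yfun hψc hS hSsa
  have hd0 : 0 ≤ d.d (cfc yf S) := dim_nonneg d hYpos
  have hc1 : c ≤ 1 :=
    (hc (fun _ => 0) fun _ => by norm_num).trans (prob3_le_one hx hy (by linarith) _ _)
  have hR0 : (0 : ℝ) ≤ R * (2 * θ + 1 / K) / q := by positivity
  rcases le_or_gt c 0 with hc0 | hc0
  · linarith
  obtain ⟨N, hN1, hRr⟩ := exists_radius hRτ
  set r := τ + 1 / (N : ℝ) with hr
  have hr0 : 0 ≤ r := by positivity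
  obtain ⟨v, a, e, xh, xl, C, hv, horth, heorth, hatop, halow, hcov, hC, hloc, -, -⟩ :=
    exists_bins (T := T) (wh := wh) (wl := wl) (δ := δ) (K := K) (N := N) hTsa
      (fun t ht => spectrum_unit hT0 hT1 t (by
        rw [← spectrum.preimage_algebraMap (R := ℝ) ℂ] at ht ⊢; simpa [Set.mem_preimage, StarSubalgebra.spectrum_eq] using ht))
      hτ hτ' hδ hK hN1 hwh hwl
  have hcast : ∀ z : Cl s, ((star z * z : Cl s) : F) = sq (z : F) := fun _ => rfl
  have htop : ∀ k, ∀ D : Dim (Cl s), x ≤ D.d (sq (a k (.inl true) : F)) := fun k D => by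
    have := congrArg Subtype.val (hatop k)
    rw [hcast, coe_cut s δ (IsSelfAdjoint.star_mul_self wh), hcast] at this
    exact this ▸ (hd D).1
  have hlow : ∀ k, ∀ D : Dim (Cl s), y ≤ D.d (sq (a k (.inl false) : F)) := fun k D => by
    have := congrArg Subtype.val (halow k)
    rw [hcast, coe_cut s δ (IsSelfAdjoint.star_mul_self wl), hcast] at this
    exact this ▸ (hd D).2.2.1
  have hbins : ∀ k, ∀ D : Dim (Cl s), ∑ i, D.d (sq (a k (.inr i) : F)) ≤ q := fun k D => by
    have h1 : ∑ l, D.d (sq (a k l : F)) ≤ D.d 1 :=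
      dim_orth D (fun l => (a k l : F)) posIn_one (fun l => (a k l).2)
        (fun l => by rw [mul_one]; rfl)
        (fun l l' hne => by simpa using congrArg Subtype.val (horth k l l' hne))
    rw [Fintype.sum_sum_type, Fintype.sum_bool, D.one] at h1
    linarith [htop k D, hlow k D]
  have hAD : ∀ D : Dim (Cl s),
      (K : ℝ) * (q - 2 * θ) - 1 ≤ ∑ b : Fin K × Fin (N + 1), D.d (sq (a b.1 (.inr b.2) : F)) := by
    intro D
    have he : ∑ k, D.d (sq (e k : F)) ≤ 1 := by
      have := dim_orth D (u := fun k => sq (e k : F)) (fun k => (e k : F)) posIn_one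
        (fun k => (e k).2) (fun k => by rw [mul_one]; rfl)
        (fun k k' hne => by simpa using congrArg Subtype.val (heorth k k' hne))
      rwa [D.one] at this
    have hone : ∀ k, q - 2 * θ - D.d (sq (e k : F)) ≤ ∑ i, D.d (sq (a k (.inr i) : F)) := by
      intro k
      have := dim_cover D (u := (1 : F))
        (v := Sum.elim (fun i => sq (a k (.inr i) : F))
          ![sq (e k : F), sq (wh : F), sq (wl : F)])
        (Sum.elim (fun _ => (1 : F)) ![1, (xh : F), (xl : F)]) posIn_one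
        (by
          rintro (i | i)
          · exact posIn_sq (a k _).2
          · fin_cases i <;> first | exact posIn_sq (e k).2 | exact posIn_sq wh.2 | exact posIn_sq wl.2)
        (by
          rintro (i | i)
          · exact one_mem _
          · fin_cases i <;> first | exact one_mem _ | exact xh.2 | exact xl.2)
        (by
          have := congrArg Subtype.val (hcov k)
          simp [Fintype.sum_sum_type, Fin.sum_univ_three, sq] at this ⊢
          simpa [add_assoc] using this)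
      rw [D.one, Fintype.sum_sum_type, Fin.sum_univ_three] at this
      simp at this
      linarith [(hd D).2.1, (hd D).2.2.2, hqdef]
    rw [Fintype.sum_prod_type]
    refine le_trans ?_ (sum_le_sum fun k _ => hone k)
    simp only [sum_sub_distrib, sum_const, card_univ, Fintype.card_fin, nsmul_eq_mul]
    linarith
  have hbanks : Banks (fun j => κ.hom j) := κ.comm
  set Λ := Fin K × (Bool ⊕ Fin (N + 1))
  set P : (Fin R → Λ) → F := fun l => bp (fun j => κ.hom j) fun j => a (l j).1 (l j).2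
  have hupper : ∑ l : Fin R → Λ, G.indicator (fun _ => d.d (sq (P l))) (∑ j, lval v (l j).2) ≤
      (K : ℝ) ^ R * d.d (cfc yf S) := by
    have hsplit : ∀ f : (Fin R → Λ) → ℝ, ∑ l, f l =
        ∑ kk : Fin R → Fin K, ∑ ll : Fin R → Bool ⊕ Fin (N + 1), f fun j => (kk j, ll j) := by
      intro f
      rw [← (Equiv.arrowProdEquivProdArrow (Fin R) (fun _ => Fin K)
        (fun _ => Bool ⊕ Fin (N + 1))).symm.sum_comp, Fintype.sum_prod_type]
      rfl
    rw [hsplit]
    refine (sum_le_sum fun kk _ => (?_ : _ ≤ d.d (cfc yf S))).trans (le_of_eq (by simp))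
    set good := fun ll : Fin R → Bool ⊕ Fin (N + 1) => (∑ j, lval v (ll j)) ∈ G
    rw [show ∑ ll : Fin R → Bool ⊕ Fin (N + 1),
        G.indicator (fun _ => d.d (sq (P fun j => (kk j, ll j)))) (∑ j, lval v (ll j)) =
        ∑ ll : {ll // good ll}, d.d (sq (P fun j => (kk j, ll.1 j))) by
      simp only [Set.indicator_apply, good]
      rw [← sum_filter]
      exact sum_subtype _ (fun _ => by simp [good]) _]
    set rf' : ℝ → ℝ := nfun ψ
    have hrfc : Continuous rf' := continuous_nfun hψc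
    have hfix : ∀ ll : {ll // good ll},
        cfc rf' S * cfc yf S * cfc rf' S * P (fun j => (kk j, ll.1 j)) =
          P (fun j => (kk j, ll.1 j)) := fun ll =>
      localised_fix hbanks hr0 hC hRr (fun j => hloc (kk j) (ll.1 j)) hSsa hψc fun t ht =>
        hG _ ll.2 t ht
    have hPmem : ∀ l, P l ∈ Cl s' := fun l => bp_mem _ _ fun j b => hκ j b
    have hxy' : ∀ ll ll' : {ll // good ll},
        star (cfc rf' S * P fun j => (kk j, ll.1 j)) * cfc yf S *
          (cfc rf' S * P fun j => (kk j, ll'.1 j)) =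
        star (P fun j => (kk j, ll.1 j)) * P fun j => (kk j, ll'.1 j) := fun ll ll' => by
      conv_rhs => rw [← hfix ll']
      rw [star_mul, IsSelfAdjoint.cfc.star_eq]
      simp only [mul_assoc]
    refine dim_orth d (fun ll => cfc rf' S * P fun j => (kk j, ll.1 j)) hYpos
      (fun ll => mul_mem (cfc_mem_cl s' _ hrfc hS hSsa) (hPmem _)) (fun ll => hxy' ll ll) ?_
    intro ll ll' hne
    rw [hxy']
    obtain ⟨j, hj⟩ := Function.ne_iff.1 fun he => hne (Subtype.ext he)
    simp only [P]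
    rw [bp_star hbanks, bp_mul hbanks]
    exact bp_eq_zero _ _ j (horth (kk j) _ _ hj)
  have hsum := pieces_upper d a v hx hy hxy.le htop hlow hbins R (fun j => κ.hom j) hbanks hκ 1
    (one_mem _) (fun _ _ => Commute.one_right _) G
  simp only [mul_one] at hsum
  have hmain : ∀ A : ℝ, (∑ b : Fin R → Fin K × Fin (N + 1),
      d.d (sq (bp (fun j => κ.hom j) fun j => a (b j).1 (.inr (b j).2)))) ≥ A →
      c * A ≤ q ^ R * ((K : ℝ) ^ R * d.d (cfc yf S)) := by
    intro A hA
    refine (mul_le_mul_of_nonneg_left hA hc0.le).trans ?_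
    rw [mul_sum]
    refine le_trans (sum_le_sum fun b _ => ?_)
      (hsum.trans (mul_le_mul_of_nonneg_left hupper (pow_nonneg hq.le R)))
    rw [mul_comm]
    exact mul_le_mul_of_nonneg_left (hc _ fun j => hv _)
      (dim_nonneg d (posIn_sq (bp_mem _ _ fun j b => hκ j b)))
  rcases Nat.eq_zero_or_pos R with hR | hR
  · subst hR
    have := hmain 1 (by simp [bp_zero, sq, d.one])
    simp at this ⊢
    linarith
  set h : ℝ := -(2 * θ + 1 / K) / q with hh
  have hKp : (0 : ℝ) < K := by exact_mod_cast hK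
  have hA : (K : ℝ) * (q - 2 * θ) - 1 = q * K * (1 + h) := by
    rw [hh]; field_simp; ring
  have hgoal : c - R * (2 * θ + 1 / K) / q ≤ c + R * h := le_of_eq (by rw [hh]; ring)
  refine hgoal.trans ?_
  have hh0 : h ≤ 0 := div_nonpos_of_nonpos_of_nonneg (by
    have : (0 : ℝ) ≤ 1 / K := by positivity
    linarith) hq.le
  rcases lt_or_ge (1 + h) 0 with hneg | hpos
  · have : (R : ℝ) * h ≤ h := by
      have : (1 : ℝ) ≤ R := by exact_mod_cast hR
      nlinarith
    linarith
  have hlowB := bins_lower d (fun b : Fin K × Fin (N + 1) => a b.1 (.inr b.2))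
    (A := q * K * (1 + h)) (by positivity) (fun D => hA ▸ hAD D) R (fun j => κ.hom j) hbanks hκ 1
    (one_mem _) (fun _ _ => Commute.one_right _)
  simp only [mul_one] at hlowB
  rw [show sq (1 : F) = 1 by simp [sq], d.one, mul_one] at hlowB
  have h2 := hmain _ hlowB
  rw [mul_pow, mul_pow, ← mul_assoc (q ^ R)] at h2
  have hqK : 0 < q ^ R * (K : ℝ) ^ R := by positivity
  have h3 : c * (1 + h) ^ R ≤ d.d (cfc yf S) := by
    refine le_of_mul_le_mul_left ?_ hqK
    linarith
  have hb := one_add_mul_le_pow (by linarith : (-2 : ℝ) ≤ h) R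
  nlinarith [mul_le_mul_of_nonneg_left hb hc0.le, mul_nonneg (sub_nonneg.2 hc1)
    (mul_nonneg (Nat.cast_nonneg (α := ℝ) R) (neg_nonneg.2 hh0))]

theorem mixture_of : MixtureTarget := by
  intro F _ s R κ T eh el wh wl x y θ τ μ δ G ψ hs hT0 hT1 _ _ hτ hτ' hδ hx hy hxy hθ hRτ hwh hwh'
    hwl hwl' hd hψc hψ hG
  subst hwh hwl
  have hTsa : IsSelfAdjoint T := isSelfAdjoint_coe (sqLe_zero_star hT0)
  have hbh : bump (1 - τ) T * wh = wh := Subtype.ext (by
    rw [MulMemClass.coe_mul, coe_bump s _ hTsa]; exact hwh')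
  have hbl : bump (1 - τ) (1 - T) * wl = wl := Subtype.ext (by
    rw [MulMemClass.coe_mul, coe_bump s _ ((IsSelfAdjoint.one _).sub hTsa)]
    exact hwl')
  set s' : Set F := ⋃ j, κ.hom j '' {b : Cl s | (b : F) ∈ s}
  have hs' : s'.Countable := Set.countable_iUnion fun j =>
    (hs.preimage Subtype.val_injective).image _
  have hκ : ∀ j b, κ.hom j b ∈ Cl s' := fun j => bank_mem (κ.hom j) fun b hb =>
    StarSubalgebra.le_topologicalClosure _
      (StarAlgebra.subset_adjoin ℂ _ (Set.mem_iUnion.2 ⟨j, b, hb, rfl⟩))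
  set S := (∑ j, κ.hom j T : F) with hSdef
  have hSsa : IsSelfAdjoint S := isSelfAdjoint_sum _ fun j _ => hTsa.map (κ.hom j)
  have hS : S ∈ Cl s' := sum_mem fun j _ => hκ j T
  have hY : cut (1 / 4) (cfc ψ S) = cfc (yfun ψ) S := cut_cfc hψc hSsa
  refine ⟨fun c hc => ⟨s', hs', ?_, fun d => ?_⟩, fun hfh hfl hp => ?_⟩
  · rw [hY]
    exact posIn_yfun hψc hS hSsa
  · have hb : ∀ K : ℕ, c - R * (2 * θ + 1 / (K + 1 : ℕ)) / (1 - x - y) ≤
        d.d (cut (1 / 4) (cfc ψ S)) := fun K =>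
      dim_bound κ hκ hT0 hT1 hτ hτ' hδ hx hy hxy hθ hRτ hbh hbl (fun D => hd D) hψc hG hc d
        (Nat.succ_pos K)
    have hlim : Filter.Tendsto
        (fun K : ℕ => c - (R : ℝ) * (2 * θ + 1 / (K + 1 : ℕ)) / (1 - x - y)) Filter.atTop
        (nhds (c - R * (2 * θ + 0) / (1 - x - y))) := by
      refine tendsto_const_nhds.sub (((tendsto_const_nhds.add ?_).const_mul _).div_const _)
      have := tendsto_one_div_add_atTop_nhds_zero_nat (𝕜 := ℝ)
      exact_mod_cast this
    refine le_trans ?_ (le_of_tendsto' hlim hb)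
    rw [add_zero]
    have : (R : ℝ) * (2 * θ) / (1 - x - y) ≤ 3 * R * θ / (1 - x - y) :=
      div_le_div_of_nonneg_right (by nlinarith [(Nat.cast_nonneg R : (0 : ℝ) ≤ R)]) (by linarith)
    linarith
  · rw [hY]
    obtain ⟨p, hp⟩ := hp
    obtain ⟨Kh, zh, hzh⟩ := hfh
    obtain ⟨Kl, zl, hzl⟩ := hfl
    obtain ⟨N, hN1, hRr⟩ := exists_radius hRτ
    set r := τ + 1 / (N : ℝ) with hr
    have hr0 : 0 ≤ r := by positivity
    obtain ⟨v, a, e, xh, xl, C, -, -, -, -, -, -, hC, -, hlh, hll⟩ :=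
      exists_bins (T := T) (wh := wh) (wl := wl) (δ := δ) (K := 1) (N := N) hTsa
        (fun t ht => spectrum_unit hT0 hT1 t (by
          rw [← spectrum.preimage_algebraMap (R := ℝ) ℂ] at ht ⊢; simpa [Set.mem_preimage, StarSubalgebra.spectrum_eq] using ht))
        hτ hτ' hδ le_rfl hN1 hbh hbl
    set w : Fin R → Cl s := fun j => if p j = 1 then wh else wl
    set val : Fin R → ℝ := fun j => ((p j : ℕ) : ℝ)
    set W := bp (fun j => κ.hom j) w
    have hwloc : ∀ j, Loc T (w j) (val j) r C := fun j => by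
      rcases Fin.exists_fin_two.1 ⟨p j, rfl⟩ with h | h
      · simpa [w, val, h, hr] using hll
      · simpa [w, val, h, hr] using hlh
    have hfix : cfc (nfun ψ) S * cfc (yfun ψ) S * cfc (nfun ψ) S * W = W :=
      localised_fix κ.comm hr0 hC hRr hwloc hSsa hψc fun t ht => hG _ hp t ht
    obtain ⟨n, z, hz⟩ := full_banks R (fun j => κ.hom j) κ.comm w (fun j => by
      by_cases h : p j = 1
      · exact ⟨Kh, zh, by simpa [w, h] using hzh⟩
      · exact ⟨Kl, zl, by simpa [w, h] using hzl⟩)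
    refine ⟨n, fun i => cfc (nfun ψ) S * W * z i, Eq.trans (sum_congr rfl fun i _ => ?_) hz⟩
    conv_rhs => rw [show bp (fun j => κ.hom j) w = W from rfl]; arg 1; arg 2; arg 2; rw [← hfix]
    simp only [star_mul, IsSelfAdjoint.cfc.star_eq, mul_assoc]

end

end Vale.Agent.P095.Amen.Mixture
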