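import Vale.Agent.P095.Amen.Mixture.Local

/-!
# P095 mixture: the pieces of one bank

For each shift `k` the pieces are a top end, a low end and bins; the gaps of different shifts are
orthogonal, so on average the bins carry everything but the ends and `1 / K`.
-/

namespace Vale.Agent.P095.Amen.Mixture

open Vale.Agent.P101.KR

noncomputable section

section Scalar

variable (τ : ℝ) (K N : ℕ)

/-- The grid coordinate. -/
def zc (t : ℝ) : ℝ := (t - τ) * ((N : ℝ) * K + 1) / (1 - 2 * τ)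

/-- The gaps of shift `k`. -/
def gc (k i : ℕ) : ℝ := (i : ℝ) * K + k + 1

/-- Zero up to zero, one from one half on. -/
def ramp (s : ℝ) : ℝ := min 1 (max 0 (2 * s))

/-- The bins of shift `k`. -/
def gb (k i : ℕ) (t : ℝ) : ℝ :=
  (if i = 0 then 1 else ramp (zc τ K N t - gc K k (i - 1))) *
    (if i = N then 1 else ramp (gc K k i - zc τ K N t))

/-- The gap of shift `k`. -/
def ge' (k : ℕ) (t : ℝ) : ℝ := 1 - ∑ i : Fin (N + 1), gb τ K N k i t

lemma ramp_mem (s : ℝ) : 0 ≤ ramp s ∧ ramp s ≤ 1 :=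
  ⟨le_min zero_le_one (le_max_left _ _), min_le_left _ _⟩

lemma ramp_one {s : ℝ} (h : 1 / 2 ≤ s) : ramp s = 1 :=
  min_eq_left (le_max_of_le_right (by linarith))

lemma ramp_ne {s : ℝ} (h : ramp s ≠ 0) : 0 < s := by
  by_contra hs
  exact h (by rw [ramp, max_eq_left (by linarith), min_eq_right zero_le_one])

@[fun_prop] lemma continuous_gb (k i : ℕ) : Continuous (gb τ K N k i) := by
  unfold gb ramp zc
  split_ifs <;> fun_prop

@[fun_prop] lemma continuous_ge' (k : ℕ) : Continuous (ge' τ K N k) := by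
  unfold ge'
  fun_prop

lemma gb_mem (k i : ℕ) (t : ℝ) : 0 ≤ gb τ K N k i t ∧ gb τ K N k i t ≤ 1 := by
  have h1 : ∀ (p : Prop) [Decidable p] (s : ℝ),
      0 ≤ (if p then 1 else ramp s) ∧ (if p then 1 else ramp s) ≤ 1 := fun p _ s => by
    split_ifs
    · norm_num
    · exact ramp_mem s
  exact ⟨mul_nonneg (h1 _ _).1 (h1 _ _).1, mul_le_one₀ (h1 _ _).2 (h1 _ _).1 (h1 _ _).2⟩

variable {τ K N}

lemma gb_ne {k i : ℕ} {t : ℝ} (h : gb τ K N k i t ≠ 0) :
    (i ≠ 0 → gc K k (i - 1) < zc τ K N t) ∧ (i ≠ N → zc τ K N t < gc K k i) := by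
  constructor <;> intro hi
  · have := left_ne_zero_of_mul h
    rw [if_neg hi] at this
    linarith [ramp_ne this]
  · have := right_ne_zero_of_mul h
    rw [if_neg hi] at this
    linarith [ramp_ne this]

lemma gc_mono {k i j : ℕ} (h : i ≤ j) : gc K k i ≤ gc K k j := by
  unfold gc
  gcongr

lemma gb_disj {k i j : ℕ} {t : ℝ} (hij : i ≠ j) (hi : i ≤ N) (hj : j ≤ N) :
    gb τ K N k i t * gb τ K N k j t = 0 := by
  wlog hlt : i < j generalizing i j
  · rw [mul_comm]
    exact this hij.symm hj hi (by omega)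
  by_contra h
  obtain ⟨h1, h2⟩ := mul_ne_zero_iff.1 h
  have a := (gb_ne h1).2 (by omega)
  have b := (gb_ne h2).1 (by omega)
  have : gc K k i ≤ gc K k (j - 1) := gc_mono (by omega)
  linarith

lemma ge'_nonneg (k : ℕ) (t : ℝ) : 0 ≤ ge' τ K N k t := by
  rw [ge', sub_nonneg]
  by_cases h : ∃ i : Fin (N + 1), gb τ K N k i t ≠ 0
  · obtain ⟨i, hi⟩ := h
    rw [Finset.sum_eq_single i]
    · exact (gb_mem τ K N k i t).2
    · intro j _ hj
      exact (mul_eq_zero.1 (gb_disj (fun he => hj (Fin.ext he)) (by omega) (by omega))).resolve_right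
        hi
    · simp
  · push Not at h
    simp [h]

lemma ge'_near {k : ℕ} {t : ℝ} (h : ge' τ K N k t ≠ 0) :
    ∃ i < N, |zc τ K N t - gc K k i| < 1 / 2 := by
  classical
  by_contra hc
  push Not at hc
  apply h
  set z := zc τ K N t
  have hex : ∃ i, i = N ∨ z ≤ gc K k i := ⟨N, Or.inl rfl⟩
  obtain ⟨i, hi, hmin⟩ : ∃ i, (i = N ∨ z ≤ gc K k i) ∧
      ∀ j < i, ¬ (j = N ∨ z ≤ gc K k j) := ⟨_, Nat.find_spec hex, fun j => Nat.find_min hex⟩
  have hiN : i ≤ N := by
    by_contra hlt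
    exact hmin N (by omega) (Or.inl rfl)
  have hone : gb τ K N k i t = 1 := by
    rw [gb]
    have h1 : (if i = 0 then 1 else ramp (z - gc K k (i - 1))) = 1 := by
      split_ifs with h0
      · rfl
      · have hj := hmin (i - 1) (by omega)
        push Not at hj
        have := hc (i - 1) (by omega)
        exact ramp_one (by rwa [abs_of_pos (by linarith [hj.2])] at this)
    have h2 : (if i = N then 1 else ramp (gc K k i - z)) = 1 := by
      split_ifs with h0
      · rfl
      · have := hc i (by omega)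
        exact ramp_one (by rw [abs_sub_comm, abs_of_nonneg] at this <;>
          linarith [hi.resolve_left h0])
    rw [h1, h2, mul_one]
  rw [ge', Finset.sum_eq_single (⟨i, by omega⟩ : Fin (N + 1)), hone, sub_self]
  · intro j _ hj
    have := gb_disj (τ := τ) (K := K) (N := N) (k := k) (t := t) (i := j) (j := i)
      (fun he => hj (Fin.ext he)) (by omega) hiN
    rwa [hone, mul_one] at this
  · simp

lemma ge'_disj {k k' : ℕ} (hk : k < K) (hk' : k' < K) (h : k ≠ k') (t : ℝ) :
    ge' τ K N k t * ge' τ K N k' t = 0 := by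
  by_contra hne
  obtain ⟨h1, h2⟩ := mul_ne_zero_iff.1 hne
  obtain ⟨i, -, hi⟩ := ge'_near h1
  obtain ⟨j, -, hj⟩ := ge'_near h2
  have hne' : i * K + k ≠ j * K + k' := by
    intro he
    have h3 := congrArg (· % K) he
    simp only [Nat.mul_add_mod_self_right, Nat.mod_eq_of_lt hk, Nat.mod_eq_of_lt hk'] at h3
    exact h h3
  have hlt : |gc K k i - gc K k' j| < 1 := by
    rw [abs_lt] at hi hj ⊢
    constructor <;> linarith
  rw [abs_lt] at hlt
  unfold gc at hlt
  rcases Nat.lt_or_gt_of_ne hne' with hl | hl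
  · have : (i : ℝ) * K + k + 1 ≤ j * K + k' := by exact_mod_cast hl
    linarith [hlt.1]
  · have : (j : ℝ) * K + k' + 1 ≤ i * K + k := by exact_mod_cast hl
    linarith [hlt.2]

/-- Constant beyond the last gap. -/
lemma gb_top (hN : 1 ≤ N) {k i : ℕ} (hk : k < K) (hi : i ≤ N) {t : ℝ}
    (ht : (N : ℝ) * K + 1 / 2 ≤ zc τ K N t) :
    gb τ K N k i t = if i = N then 1 else 0 := by
  have hgc : ∀ j, j < N → gc K k j ≤ (N : ℝ) * K := fun j hj => by
    have : (j * K + k + 1 : ℕ) ≤ N * K := by nlinarith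
    unfold gc
    exact_mod_cast this
  rcases eq_or_ne i N with rfl | hne
  · rw [gb, if_pos rfl, if_pos rfl, mul_one]
    split_ifs
    · rfl
    · exact ramp_one (by linarith [hgc (i - 1) (by omega)])
  · rw [if_neg hne]
    by_contra h
    linarith [(gb_ne h).2 hne, hgc i (by omega)]

/-- Constant before the first gap. -/
lemma gb_low (hN : 1 ≤ N) {k i : ℕ} {t : ℝ} (ht : zc τ K N t ≤ 1 / 2) :
    gb τ K N k i t = if i = 0 then 1 else 0 := by
  have hgc : ∀ j, (1 : ℝ) ≤ gc K k j := fun j =>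
    le_add_of_nonneg_left (by positivity)
  rcases eq_or_ne i 0 with rfl | hne
  · rw [gb, if_pos rfl, if_neg (by omega : (0 : ℕ) ≠ N), if_pos rfl, one_mul]
    exact ramp_one (by linarith [hgc 0])
  · rw [if_neg hne]
    by_contra h
    linarith [(gb_ne h).1 hne, hgc (i - 1)]

lemma ge'_ends (hN : 1 ≤ N) {k : ℕ} (hk : k < K) {t : ℝ}
    (ht : zc τ K N t ≤ 1 / 2 ∨ (N : ℝ) * K + 1 / 2 ≤ zc τ K N t) : ge' τ K N k t = 0 := by
  rcases ht with ht | ht
  · rw [ge', Finset.sum_eq_single (0 : Fin (N + 1))] <;> simp [gb_low hN ht]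
  · rw [ge', Finset.sum_eq_single (Fin.last N)]
    · simp [gb_top hN hk le_rfl ht]
    · intro j _ hj
      rw [gb_top hN hk (by omega) ht, if_neg fun he => hj (Fin.ext (by simpa using he))]
    · simp

/-- The value of bin `i`. -/
def bv (τ : ℝ) (K N i : ℕ) : ℝ := τ + (1 - 2 * τ) / ((N : ℝ) * K + 1) * ((i : ℝ) * K)

lemma bv_mem (hτ : 0 < τ) (hτ' : τ < 1 / 4) {i : ℕ} (hi : i ≤ N) :
    0 ≤ bv τ K N i ∧ bv τ K N i ≤ 1 := by
  have hA : (0 : ℝ) < (N : ℝ) * K + 1 := by positivity
  have h0 : 0 ≤ (1 - 2 * τ) / ((N : ℝ) * K + 1) := div_nonneg (by linarith) hA.le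
  refine ⟨add_nonneg hτ.le (mul_nonneg h0 (by positivity)), ?_⟩
  have h1 : (i : ℝ) * K ≤ (N : ℝ) * K + 1 := by
    have : (i : ℝ) * K ≤ (N : ℝ) * K := by gcongr
    linarith
  have := mul_le_mul_of_nonneg_left h1 h0
  rw [div_mul_cancel₀ _ hA.ne'] at this
  unfold bv
  linarith

/-- Where a bin lives. -/
lemma gb_supp (hτ : 0 < τ) (hτ' : τ < 1 / 4) (hN : 1 ≤ N) {k i : ℕ} (hk : k < K) (hi : i ≤ N)
    {t : ℝ} (ht0 : 0 ≤ t) (ht1 : t ≤ 1) (h : gb τ K N k i t ≠ 0) :
    |t - bv τ K N i| ≤ τ + 1 / N ∧ (i = N → |t - 1| ≤ τ + 1 / N) ∧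
      (i = 0 → |t - 0| ≤ τ + 1 / N) := by
  obtain ⟨h1, h2⟩ := gb_ne h
  set A : ℝ := (N : ℝ) * K + 1 with hA
  have hA0 : 0 < A := by positivity
  set w : ℝ := (1 - 2 * τ) / A with hw
  have hw0 : 0 < w := div_pos (by linarith) hA0
  have ht : t = τ + w * zc τ K N t := by
    have h' : w * A = 1 - 2 * τ := div_mul_cancel₀ _ hA0.ne'
    rw [zc, ← hA, ← mul_div_assoc, mul_comm (t - τ) A, ← mul_assoc, h',
      mul_div_cancel_left₀ _ (by linarith : (1 : ℝ) - 2 * τ ≠ 0)]
    ring
  have hwA : w * A = 1 - 2 * τ := div_mul_cancel₀ _ hA0.ne'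
  have hK : (1 : ℝ) ≤ K := by exact_mod_cast (show 1 ≤ K by omega)
  have hN' : (1 : ℝ) ≤ N := by exact_mod_cast hN
  have hwK : w * K ≤ 1 / N := by
    rw [le_div_iff₀ (by linarith : (0 : ℝ) < N)]
    nlinarith
  have hwK1 : w ≤ w * K := le_mul_of_one_le_right hw0.le hK
  set z := zc τ K N t
  have hlo : i ≠ 0 → ((i : ℝ) - 1) * K + 1 ≤ z := fun h0 => by
    have := h1 h0
    unfold gc at this
    rw [Nat.cast_sub (by omega), Nat.cast_one] at this
    nlinarith [(Nat.cast_nonneg k : (0 : ℝ) ≤ k)]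
  have hhi : i ≠ N → z ≤ (i : ℝ) * K + K := fun h0 => by
    have := h2 h0
    have hk' : (k : ℝ) + 1 ≤ K := by exact_mod_cast hk
    unfold gc at this
    linarith
  have e1 : bv τ K N i = τ + w * ((i : ℝ) * K) := by rw [bv, hw, hA]
  rw [e1]
  refine ⟨abs_le.2 ⟨?_, ?_⟩, fun hiN => abs_le.2 ⟨?_, by linarith⟩, fun hi0 => abs_le.2
    ⟨by linarith, ?_⟩⟩
  · rcases eq_or_ne i 0 with rfl | h0
    · rw [Nat.cast_zero, zero_mul, mul_zero, add_zero]
      linarith [one_div_nonneg.2 (show (0 : ℝ) ≤ N by linarith)]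
    · nlinarith [mul_le_mul_of_nonneg_left (hlo h0) hw0.le]
  · rcases eq_or_ne i N with rfl | h0
    · nlinarith
    · nlinarith [mul_le_mul_of_nonneg_left (hhi h0) hw0.le]
  · subst hiN
    nlinarith [mul_le_mul_of_nonneg_left (hlo (by omega)) hw0.le]
  · subst hi0
    have := mul_le_mul_of_nonneg_left (hhi (by omega)) hw0.le
    simp at this
    linarith

end Scalar

/-- The value of a piece. -/
def lval {M : ℕ} (v : Fin M → ℝ) : Bool ⊕ Fin M → ℝ := Sum.elim (fun b => if b then 1 else 0) v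

variable {E : Type} [CStarAlgebra E]

lemma cfc_one_end {T w : E} {τ : ℝ} {K N : ℕ} (hτ : 0 < τ) (hτ' : τ < 1 / 4)
    (hT : IsSelfAdjoint T) (hw : bump (1 - τ) T * w = w) {h : ℝ → ℝ} (hh : Continuous h) (γ : ℝ)
    (hγ : ∀ t, (N : ℝ) * K + 1 / 2 ≤ zc τ K N t → h t = γ) : cfc h T * w = γ • w := by
  set W : ℝ := (1 - 2 * τ) / ((N : ℝ) * K + 1) / 2 with hW
  have hW0 : 0 < W := div_pos (div_pos (by linarith) (by positivity)) two_pos
  have key := cfc_kill hT (φ := fun t => min 1 (max 0 ((t - (1 - τ) / 2) / ((1 - τ) / 2))))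
    (by fun_prop) (h := fun t => h t - γ) (hh.sub continuous_const)
    (c := min 1 (W / ((1 - τ) / 2))) (lt_min one_pos (div_pos hW0 (by linarith))) ?_ hw
  · rwa [cfc_sub h (fun _ => γ) T hh.continuousOn continuousOn_const, cfc_const γ T, sub_mul,
      sub_eq_zero, ← Algebra.smul_def] at key
  intro t ht
  have hz : zc τ K N t < (N : ℝ) * K + 1 / 2 := by
    by_contra hle
    exact ht (sub_eq_zero.2 (hγ t (not_lt.1 hle)))
  have htW : t < 1 - τ - W := by
    rw [zc, div_lt_iff₀ (by linarith : (0 : ℝ) < 1 - 2 * τ)] at hz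
    have : W * (2 * ((N : ℝ) * K + 1)) = 1 - 2 * τ := by rw [hW]; field_simp
    nlinarith [(by positivity : (0 : ℝ) < (N : ℝ) * K + 1)]
  have hm : max 0 ((t - (1 - τ) / 2) / ((1 - τ) / 2)) ≤ max 0 (1 - W / ((1 - τ) / 2)) := by
    refine max_le_max le_rfl ?_
    have e : 1 - W / ((1 - τ) / 2) = ((1 - τ) / 2 - W) / ((1 - τ) / 2) := by
      rw [sub_div ((1 - τ) / 2) W, div_self (by linarith : (1 - τ) / 2 ≠ 0)]
    rw [e]
    exact div_le_div_of_nonneg_right (by linarith) (by linarith)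
  have h3 : max 0 (1 - W / ((1 - τ) / 2)) = 1 - min 1 (W / ((1 - τ) / 2)) := by
    rw [← max_sub_sub_left, sub_self]
  linarith [min_le_right (1 : ℝ) (max 0 ((t - (1 - τ) / 2) / ((1 - τ) / 2)))]

lemma cfc_zero_end {T w : E} {τ : ℝ} {K N : ℕ} (hτ : 0 < τ) (hτ' : τ < 1 / 4)
    (hT : IsSelfAdjoint T) (hw : bump (1 - τ) (1 - T) * w = w) {h : ℝ → ℝ} (hh : Continuous h)
    (γ : ℝ) (hγ : ∀ t, zc τ K N t ≤ 1 / 2 → h t = γ) : cfc h T * w = γ • w := by
  have h1 : (1 : E) - T = cfc (fun t : ℝ => 1 - t) T := by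
    rw [cfc_sub (fun _ => (1 : ℝ)) (fun t => t) T, cfc_const_one ℝ T, cfc_id' ℝ T]
  have h2 : cfc h T = cfc (fun t => h (1 - t)) (1 - T) := by
    rw [h1, ← cfc_comp' (fun t => h (1 - t)) (fun t : ℝ => 1 - t) T (by fun_prop)]
    exact cfc_congr fun t _ => by simp
  rw [h2]
  refine cfc_one_end hτ hτ' ((IsSelfAdjoint.one E).sub hT) hw (by fun_prop) (K := K) (N := N) γ
    fun t ht => hγ _ ?_
  have e : zc τ K N (1 - t) = (N : ℝ) * K + 1 - zc τ K N t := by
    rw [eq_sub_iff_add_eq, zc, zc, ← add_div, div_eq_iff (by linarith : (1 : ℝ) - 2 * τ ≠ 0)]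
    ring
  linarith

/-- The cut of `w` at its own source: `√((t - δ)₊ / t)`. -/
def shf (δ t : ℝ) : ℝ := Real.sqrt (max (t - δ) 0 / max t δ)

/-- `bump δ t / t`. -/
def mf (δ t : ℝ) : ℝ := min 1 (max 0 ((t - δ / 2) / (δ / 2))) / max t (δ / 2)

/-- The root of `(2 m - m t m) / t`. -/
def rf (δ t : ℝ) : ℝ := Real.sqrt ((2 * mf δ t - mf δ t * t * mf δ t) / max t (δ / 2))

variable {δ : ℝ}

lemma continuous_shf (hδ : 0 < δ) : Continuous (shf δ) :=
  Real.continuous_sqrt.comp (((continuous_id.sub continuous_const).max continuous_const).div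
    (continuous_id.max continuous_const) fun t => (lt_max_of_lt_right hδ).ne')

lemma continuous_mf (hδ : 0 < δ) : Continuous (mf δ) :=
  (continuous_const.min (continuous_const.max (by fun_prop))).div
    (continuous_id.max continuous_const) fun t => (lt_max_of_lt_right (half_pos hδ)).ne'

lemma continuous_rf (hδ : 0 < δ) : Continuous (rf δ) := by
  have := continuous_mf hδ
  exact Real.continuous_sqrt.comp (((continuous_const.mul this).sub
    ((this.mul continuous_id).mul this)).div (continuous_id.max continuous_const)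
    fun t => (lt_max_of_lt_right (half_pos hδ)).ne')

lemma mf_t_shf (hδ : 0 < δ) (t : ℝ) : mf δ t * t * shf δ t = shf δ t := by
  rcases le_or_gt t δ with h | h
  · simp [shf, max_eq_right (sub_nonpos.2 h)]
  · have h0 : 0 < t := hδ.trans h
    rw [mf, max_eq_left (show δ / 2 ≤ t by linarith), min_eq_left, div_mul_cancel₀ _ h0.ne', one_mul]
    exact le_max_of_le_right ((one_le_div (half_pos hδ)).2 (by linarith))

lemma shf_sq (hδ : 0 < δ) (t : ℝ) : shf δ t * t * shf δ t = max (t - δ) 0 := by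
  rw [mul_comm _ t, mul_assoc, shf, Real.mul_self_sqrt (div_nonneg (le_max_right _ _)
    (hδ.le.trans (le_max_right _ _)))]
  rcases le_or_gt t δ with h | h
  · simp [max_eq_right (sub_nonpos.2 h)]
  · rw [max_eq_left h.le, mul_div_cancel₀ _ (hδ.trans h).ne']

lemma rf_sq (hδ : 0 < δ) (t : ℝ) : rf δ t * t * rf δ t = 2 * mf δ t - mf δ t * t * mf δ t := by
  rcases le_or_gt t (δ / 2) with h | h
  · have : mf δ t = 0 := by
      rw [mf, max_eq_left (div_nonpos_of_nonpos_of_nonneg (by linarith) (half_pos hδ).le),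
        min_eq_right zero_le_one, zero_div]
    simp [rf, this]
  · have h0 : 0 < t := (half_pos hδ).trans h
    set b := min 1 (max 0 ((t - δ / 2) / (δ / 2)))
    have hb : 0 ≤ b ∧ b ≤ 1 := ⟨le_min zero_le_one (le_max_left _ _), min_le_left _ _⟩
    have hm : mf δ t = b / t := by rw [mf, max_eq_left h.le]
    rw [mul_comm _ t, mul_assoc, rf, max_eq_left h.le, Real.mul_self_sqrt,
      mul_div_cancel₀ _ h0.ne']
    refine div_nonneg ?_ h0.le
    rw [hm, div_mul_cancel₀ _ h0.ne', ← sub_mul]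
    exact mul_nonneg (by linarith) (div_nonneg hb.1 h0.le)

/-- The hereditary unit of one end. -/
def endUnit (δ : ℝ) (w : E) : E := w * cfc (mf δ) (star w * w) * star w

lemma isSelfAdjoint_endUnit (δ : ℝ) (w : E) : IsSelfAdjoint (endUnit δ w) :=
  IsSelfAdjoint.conjugate (IsSelfAdjoint.cfc) w

lemma cfc_mid {a : E} (ha : IsSelfAdjoint a) {f g : ℝ → ℝ} (hf : Continuous f) (hg : Continuous g) :
    cfc f a * a * cfc g a = cfc (fun t => f t * t * g t) a := by
  rw [cfc_mul (fun t => f t * t) g a (by fun_prop) hg.continuousOn,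
    cfc_mul f (fun t => t) a hf.continuousOn, cfc_id' ℝ a]

lemma endUnit_cut (hδ : 0 < δ) (w : E) :
    endUnit δ w * (w * cfc (shf δ) (star w * w)) = w * cfc (shf δ) (star w * w) := by
  have : cfc (mf δ) (star w * w) * (star w * w) * cfc (shf δ) (star w * w) =
      cfc (shf δ) (star w * w) := by
    rw [cfc_mid (IsSelfAdjoint.star_mul_self w) (continuous_mf hδ) (continuous_shf hδ)]
    exact cfc_congr fun t _ => mf_t_shf hδ t
  calc endUnit δ w * (w * cfc (shf δ) (star w * w))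
      = w * (cfc (mf δ) (star w * w) * (star w * w) * cfc (shf δ) (star w * w)) := by
        simp only [endUnit, mul_assoc]
    _ = _ := by rw [this]

lemma endUnit_sq (hδ : 0 < δ) (w : E) :
    star (cfc (rf δ) (star w * w) * star w) * (star w * w) * (cfc (rf δ) (star w * w) * star w) =
      2 • endUnit δ w - endUnit δ w * endUnit δ w := by
  set a := star w * w with hadef
  have ha : IsSelfAdjoint a := IsSelfAdjoint.star_mul_self w
  have hm := continuous_mf hδ
  have h1 : cfc (rf δ) a * a * cfc (rf δ) a = 2 • cfc (mf δ) a - cfc (mf δ) a * a * cfc (mf δ) a := by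
    rw [cfc_mid ha (continuous_rf hδ) (continuous_rf hδ), cfc_mid ha hm hm, two_nsmul,
      ← cfc_add a (mf δ) (mf δ) hm.continuousOn hm.continuousOn,
      ← cfc_sub (fun t => mf δ t + mf δ t) (fun t => mf δ t * t * mf δ t) a (by fun_prop)
        (by fun_prop)]
    exact cfc_congr fun t _ => by rw [rf_sq hδ t, two_mul]
  rw [star_mul, star_star, (IsSelfAdjoint.cfc (f := rf δ) (a := a)).star_eq,
    show w * cfc (rf δ) a * a * (cfc (rf δ) a * star w) =
      w * (cfc (rf δ) a * a * cfc (rf δ) a) * star w by simp only [mul_assoc], h1, mul_sub,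
    sub_mul, mul_smul_comm, smul_mul_assoc]
  congr 1
  simp only [endUnit, ← hadef, mul_assoc]
  rw [← mul_assoc (star w) w]

/-- The pieces of one bank. -/
theorem exists_bins {T wh wl : E} {τ δ : ℝ} {K N : ℕ} (hT : IsSelfAdjoint T)
    (hsp : ∀ t ∈ spectrum ℝ T, 0 ≤ t ∧ t ≤ 1) (hτ : 0 < τ) (hτ' : τ < 1 / 4) (hδ : 0 < δ)
    (hK : 1 ≤ K) (hN : 1 ≤ N) (hwh : bump (1 - τ) T * wh = wh)
    (hwl : bump (1 - τ) (1 - T) * wl = wl) :
    ∃ (v : Fin (N + 1) → ℝ) (a : Fin K → Bool ⊕ Fin (N + 1) → E) (e : Fin K → E) (xh xl : E)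
      (C : ℝ),
      (∀ i, 0 ≤ v i ∧ v i ≤ 1) ∧
      (∀ k l l', l ≠ l' → star (a k l) * a k l' = 0) ∧
      (∀ k k', k ≠ k' → star (e k) * e k' = 0) ∧
      (∀ k, star (a k (.inl true)) * a k (.inl true) = cut δ (star wh * wh)) ∧
      (∀ k, star (a k (.inl false)) * a k (.inl false) = cut δ (star wl * wl)) ∧
      (∀ k, (∑ i, star (a k (.inr i)) * a k (.inr i)) + star (e k) * e k +
        star xh * (star wh * wh) * xh + star xl * (star wl * wl) * xl = 1) ∧
      0 ≤ C ∧ (∀ k l, Loc T (a k l) (lval v l) (τ + 1 / N) C) ∧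
      Loc T wh 1 (τ + 1 / N) C ∧ Loc T wl 0 (τ + 1 / N) C := by
  have hr0 : 0 ≤ τ + 1 / (N : ℝ) := by positivity
  set ch := wh * cfc (shf δ) (star wh * wh)
  set cl := wl * cfc (shf δ) (star wl * wl)
  set fh := endUnit δ wh
  set fl := endUnit δ wl
  set G : ℕ → Fin (N + 1) → E := fun k i => cfc (fun t => Real.sqrt (gb τ K N k i t)) T
  have hG : ∀ k i, star (G k i) = G k i := fun k i => IsSelfAdjoint.cfc.star_eq
  have hcont : ∀ k i, Continuous fun t => Real.sqrt (gb τ K N k i t) := fun k i => by fun_prop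
  have hGh : ∀ k (_ : k < K) (i : Fin (N + 1)),
      G k i * wh = (if i = Fin.last N then (1 : ℝ) else 0) • wh := fun k hk i =>
    cfc_one_end hτ hτ' hT hwh (hcont k i) _ fun t ht => by
      rw [gb_top hN hk (by omega) ht, apply_ite Real.sqrt, Real.sqrt_one, Real.sqrt_zero]
      exact if_congr (by simp [Fin.ext_iff]) rfl rfl
  have hGl : ∀ k (i : Fin (N + 1)), G k i * wl = (if i = 0 then (1 : ℝ) else 0) • wl := fun k i =>
    cfc_zero_end hτ hτ' hT hwl (hcont k i) _ fun t ht => by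
      rw [gb_low hN ht, apply_ite Real.sqrt, Real.sqrt_one, Real.sqrt_zero]
      exact if_congr ⟨fun h => Fin.ext h, fun h => congrArg Fin.val h⟩ rfl rfl
  have hlast : (Fin.last N : Fin (N + 1)) ≠ 0 := by simp [Fin.ext_iff]; omega
  have hlh : star wl * wh = 0 := by
    have h1 := hGh 0 hK (Fin.last N)
    have h2 := hGl 0 (Fin.last N)
    rw [if_pos rfl, one_smul] at h1
    rw [if_neg hlast, zero_smul] at h2
    calc star wl * wh = star wl * (G 0 (Fin.last N) * wh) := by rw [h1]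
      _ = star (G 0 (Fin.last N) * wl) * wh := by rw [star_mul, hG, mul_assoc]
      _ = 0 := by rw [h2, star_zero, zero_mul]
  have hhl : star wh * wl = 0 := by simpa using congrArg star hlh
  have hhlc : ∀ z, star wh * (wl * z) = 0 := fun z => by rw [← mul_assoc, hhl, zero_mul]
  have hlhc : ∀ z, star wl * (wh * z) = 0 := fun z => by rw [← mul_assoc, hlh, zero_mul]
  set f := fh + fl with hf
  have hfs : star f = f :=
    ((isSelfAdjoint_endUnit δ wh).add (isSelfAdjoint_endUnit δ wl)).star_eq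
  have hfch : (1 - f) * ch = 0 := by
    have : fl * ch = 0 := by simp only [fl, ch, endUnit, mul_assoc, hlhc, mul_zero]
    rw [sub_mul, one_mul, hf, add_mul, endUnit_cut hδ wh, this, add_zero, sub_self]
  have hfcl : (1 - f) * cl = 0 := by
    have : fh * cl = 0 := by simp only [fh, cl, endUnit, mul_assoc, hhlc, mul_zero]
    rw [sub_mul, one_mul, hf, add_mul, endUnit_cut hδ wl, this, zero_add, sub_self]
  have hchl : star ch * cl = 0 := by simp only [ch, cl, star_mul, mul_assoc, hhlc, mul_zero]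
  have hclh : star cl * ch = 0 := by simp only [ch, cl, star_mul, mul_assoc, hlhc, mul_zero]
  have hcc : ∀ w : E, star (w * cfc (shf δ) (star w * w)) * (w * cfc (shf δ) (star w * w)) =
      cut δ (star w * w) := fun w => by
    rw [star_mul, IsSelfAdjoint.cfc.star_eq, ← mul_assoc, mul_assoc _ (star w) w,
      cfc_mid (IsSelfAdjoint.star_mul_self w) (continuous_shf hδ) (continuous_shf hδ)]
    exact cfc_congr fun t _ => shf_sq hδ t
  set er : ℕ → E := fun k => cfc (fun t => Real.sqrt (ge' τ K N k t)) T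
  have her : ∀ k, star (er k) * er k = cfc (ge' τ K N k) T := fun k => by
    simp only [er, IsSelfAdjoint.cfc.star_eq]
    rw [← cfc_mul _ _ T (by fun_prop) (by fun_prop)]
    exact cfc_congr fun t _ => Real.mul_self_sqrt (ge'_nonneg k t)
  have hew : ∀ k (_ : k < K), cfc (ge' τ K N k) T * f = 0 := fun k hk => by
    have h1 := cfc_one_end (w := wh) hτ hτ' hT hwh (continuous_ge' τ K N k) 0
      fun t ht => ge'_ends hN hk (Or.inr ht)
    have h2 := cfc_zero_end (w := wl) hτ hτ' hT hwl (continuous_ge' τ K N k) 0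
      fun t ht => ge'_ends hN hk (Or.inl ht)
    rw [zero_smul] at h1 h2
    simp only [hf, fh, fl, endUnit, mul_add, ← mul_assoc, h1, h2, zero_mul, add_zero]
  set a : Fin K → Bool ⊕ Fin (N + 1) → E := fun k =>
    Sum.elim (fun b => if b then ch else cl) (fun i => G k i * (1 - f))
  have hmixh : ∀ k (_ : k < K) i, star (G k i * (1 - f)) * ch = 0 := fun k hk i => by
    rw [star_mul, hG, star_sub, star_one, hfs, mul_assoc,
      show G k i * ch = (G k i * wh) * cfc (shf δ) (star wh * wh) from (mul_assoc _ _ _).symm,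
      hGh k hk i, smul_mul_assoc, mul_smul_comm, hfch, smul_zero]
  have hmixl : ∀ k i, star (G k i * (1 - f)) * cl = 0 := fun k i => by
    rw [star_mul, hG, star_sub, star_one, hfs, mul_assoc,
      show G k i * cl = (G k i * wl) * cfc (shf δ) (star wl * wl) from (mul_assoc _ _ _).symm,
      hGl k i, smul_mul_assoc, mul_smul_comm, hfcl, smul_zero]
  have hloc : ∀ k (_ : k < K) (i : Fin (N + 1)) (c : ℝ) (b : E),
      (∀ t ∈ spectrum ℝ T, gb τ K N k i t ≠ 0 → |t - c| ≤ τ + 1 / N) →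
      Loc T (G k i * b) c (τ + 1 / N) ‖b‖ := fun k hk i c b hs =>
    loc_of_fun hT (hcont k i) hr0 (fun s => by
      rw [abs_of_nonneg (Real.sqrt_nonneg _)]
      exact Real.sqrt_le_one.2 (gb_mem τ K N k i s).2)
      (fun s hs' h0 => hs s hs' fun h => h0 (by simp [h])) b
  have htop : ∀ b, wh * b = G 0 (Fin.last N) * (wh * b) := fun b => by
    rw [← mul_assoc (G 0 (Fin.last N)), hGh 0 hK, if_pos rfl, one_smul]
  have hlow : ∀ b, wl * b = G 0 (0 : Fin (N + 1)) * (wl * b) := fun b => by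
    rw [← mul_assoc (G 0 _), hGl 0, if_pos rfl, one_smul]
  set C := ‖wh * cfc (shf δ) (star wh * wh)‖ + ‖wl * cfc (shf δ) (star wl * wl)‖ + ‖wh‖ + ‖wl‖ +
    ‖1 - f‖
  have hmonoC : ∀ {t b : E} {c C' : ℝ}, C' ≤ C → Loc t b c (τ + 1 / N) C' →
      Loc t b c (τ + 1 / N) C := fun hle h n =>
    (h n).trans (mul_le_mul_of_nonneg_right hle (pow_nonneg hr0 n))
  have hC := norm_nonneg (1 - f)
  have hC1 := norm_nonneg ch
  have hC2 := norm_nonneg cl
  have hC3 := norm_nonneg wh
  have hC4 := norm_nonneg wl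
  have hlt : ∀ b, Loc T (wh * b) 1 (τ + 1 / N) ‖wh * b‖ := fun b => by
    have := hloc 0 hK (Fin.last N) 1 (wh * b) fun s hs h0 =>
      (gb_supp hτ hτ' hN hK le_rfl (hsp s hs).1 (hsp s hs).2 h0).2.1 rfl
    rwa [← htop] at this
  have hll : ∀ b, Loc T (wl * b) 0 (τ + 1 / N) ‖wl * b‖ := fun b => by
    have := hloc 0 hK 0 0 (wl * b) fun s hs h0 =>
      (gb_supp hτ hτ' hN hK (Nat.zero_le N) (hsp s hs).1 (hsp s hs).2 h0).2.2 rfl
    rwa [← hlow] at this
  refine ⟨fun i => bv τ K N i, a, fun k => er k, cfc (rf δ) (star wh * wh) * star wh,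
    cfc (rf δ) (star wl * wl) * star wl, C, fun i => bv_mem hτ hτ' (by omega), ?_, ?_,
    fun k => hcc wh, fun k => hcc wl, ?_, by positivity, ?_, ?_, ?_⟩
  · rintro k ((_ | _) | i) ((_ | _) | j) hne <;> simp only [a, Sum.elim_inl, Sum.elim_inr,
      if_true, Bool.false_eq_true, if_false]
    · exact absurd rfl hne
    · exact hclh
    · simpa using congrArg star (hmixl k j)
    · exact hchl
    · exact absurd rfl hne
    · simpa using congrArg star (hmixh k k.2 j)
    · exact hmixl k i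
    · exact hmixh k k.2 i
    · have hz : G k i * G k j = 0 := by
        rw [← cfc_mul _ _ T (by fun_prop) (by fun_prop)]
        refine (cfc_congr fun t _ => ?_).trans (cfc_const_zero ℝ T)
        rw [← Real.sqrt_mul (gb_mem τ K N k i t).1, gb_disj (fun he => hne (by
          rw [Fin.ext he])) (by omega) (by omega), Real.sqrt_zero]
      rw [star_mul, hG, mul_assoc, ← mul_assoc (G k i), hz, zero_mul, mul_zero]
  · intro k k' hne
    simp only [er, IsSelfAdjoint.cfc.star_eq]
    rw [← cfc_mul _ _ T (by fun_prop) (by fun_prop)]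
    refine (cfc_congr fun t _ => ?_).trans (cfc_const_zero ℝ T)
    rw [← Real.sqrt_mul (ge'_nonneg _ t), ge'_disj k.2 k'.2 (fun he => hne (Fin.ext he)),
      Real.sqrt_zero]
  · intro k
    have hsum : ∑ i, G k i * G k i = 1 - cfc (ge' τ K N k) T := by
      have h1 : cfc (ge' τ K N k) T = 1 - ∑ i : Fin (N + 1), cfc (gb τ K N k i) T := by
        rw [show (ge' τ K N k) = fun t => 1 - ∑ i : Fin (N + 1), gb τ K N k i t from rfl,
          cfc_sub _ _ T continuousOn_const (by fun_prop), cfc_const_one ℝ T,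
          ← cfc_sum_univ (fun i : Fin (N + 1) => gb τ K N k i) T fun i => by fun_prop]
        congr 2
        funext t
        simp [Finset.sum_apply]
      rw [h1, sub_sub_cancel]
      refine Finset.sum_congr rfl fun i _ => ?_
      rw [← cfc_mul _ _ T (by fun_prop) (by fun_prop)]
      exact cfc_congr fun t _ => Real.mul_self_sqrt (gb_mem τ K N k i t).1
    have hb : ∑ i, star (a k (.inr i)) * a k (.inr i) =
        (1 - f) * (1 - cfc (ge' τ K N k) T) * (1 - f) := by
      rw [← hsum, Finset.mul_sum, Finset.sum_mul]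
      refine Finset.sum_congr rfl fun i _ => ?_
      simp only [a, Sum.elim_inr, star_mul, hG, star_sub, star_one, hfs, mul_assoc]
    have hfe : f * cfc (ge' τ K N k) T = 0 := by
      have := congrArg star (hew k k.2)
      rwa [star_mul, hfs, IsSelfAdjoint.cfc.star_eq, star_zero] at this
    have hff : f * f = fh * fh + fl * fl := by
      have h1 : fh * fl = 0 := by simp only [fh, fl, endUnit, mul_assoc, hhlc, mul_zero]
      have h2 : fl * fh = 0 := by simp only [fh, fl, endUnit, mul_assoc, hlhc, mul_zero]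
      simp only [hf, add_mul, mul_add, h1, h2, add_zero, zero_add]
    rw [hb, her, endUnit_sq hδ wh, endUnit_sq hδ wl]
    set ee := cfc (ge' τ K N k) T
    have hexp : (1 - f) * (1 - ee) * (1 - f) = 1 - f - f + f * f - ee := by
      have h3 : ee * f = 0 := hew k k.2
      simp only [sub_mul, mul_sub, one_mul, mul_one, hfe, h3, sub_zero]
      abel
    rw [hexp, hff, hf, two_nsmul, two_nsmul]
    abel
  · rintro k ((_ | _) | i)
    · exact hmonoC (C' := ‖cl‖) (by simp only [C, cl]; linarith) (hll _)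
    · exact hmonoC (C' := ‖ch‖) (by simp only [C, ch]; linarith) (hlt _)
    · exact hmonoC (C' := ‖1 - f‖) (by simp only [C]; linarith) (hloc k k.2 i _ _ fun s hs h0 =>
        (gb_supp hτ hτ' hN k.2 (by omega) (hsp s hs).1 (hsp s hs).2 h0).1)
  · have := hlt 1
    rw [mul_one] at this
    exact hmonoC (by simp only [C]; linarith) this
  · have := hll 1
    rw [mul_one] at this
    exact hmonoC (by simp only [C]; linarith) this

end

end Vale.Agent.P095.Amen.Mixture
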