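import Vale.Agent.P095.Amen.Defs

/-!
# P095 mixture: three inequalities for states, and their transport along a commuting bank
-/

namespace Vale.Agent.P095.Amen.Mixture

open Vale.Agent.P101.KR

noncomputable section

variable {F : Type} [CStarAlgebra F]

/-- The square of `c`. -/
def sq (c : F) : F := star c * c

lemma sq_mul (a b : F) : sq (a * b) = star b * sq a * b := by
  simp only [sq, star_mul, mul_assoc]

lemma sq_mul_comm {a b : F} (h : Commute a b) (h' : Commute (star a) b) :
    sq (a * b) = sq a * sq b := by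
  simp only [sq, star_mul]
  calc star b * star a * (a * b) = star a * star b * (a * b) := by rw [(h.star_star).eq]
    _ = star a * (star b * a) * b := by simp only [mul_assoc]
    _ = star a * (a * star b) * b := by
        rw [show star b * a = a * star b from by
          have := h'.star_star; rw [star_star] at this; exact this.symm.eq]
    _ = star a * a * (star b * b) := by simp only [mul_assoc]

variable {B : StarSubalgebra ℂ F}

lemma posIn_sq {c : F} (h : c ∈ B) : PosIn B (sq c) := ⟨mul_mem (star_mem h) h, c, h, rfl⟩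

lemma posIn_conj {v x : F} (hv : PosIn B v) (hx : x ∈ B) : PosIn B (star x * v * x) := by
  obtain ⟨-, c, hc, rfl⟩ := hv
  rw [show star x * (star c * c) * x = sq (c * x) from (sq_mul c x).symm]
  exact posIn_sq (mul_mem hc hx)

lemma posIn_zero : PosIn B (0 : F) := ⟨zero_mem _, 0, zero_mem _, by simp⟩

lemma posIn_one : PosIn B (1 : F) := ⟨one_mem _, 1, one_mem _, by simp⟩

lemma dim_mono_of (d : Dim B) {ι κ : Type} [Fintype ι] [Fintype κ] [DecidableEq ι] {u : ι → F}
    {v : κ → F} (x : κ → ι → F) (hu : ∀ i, PosIn B (u i)) (hv : ∀ j, PosIn B (v j))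
    (hx : ∀ j i, x j i ∈ B)
    (h : ∀ i i', ∑ j, star (x j i) * v j * x j i' = if i = i' then u i else 0) :
    ∑ i, d.d (u i) ≤ ∑ j, d.d (v j) := by
  let eι := Fintype.equivFin ι
  let eκ := Fintype.equivFin κ
  have := d.mono (fun i => u (eι.symm i)) (fun j => v (eκ.symm j)) (fun i => hu _) (fun j => hv _)
    (fun ε hε => ⟨fun j i => x (eκ.symm j) (eι.symm i), fun j i => hx _ _, fun i i' => by
      rw [eκ.symm.sum_comp (fun j => star (x j (eι.symm i)) * v j * x j (eι.symm i')), h]
      simp only [EmbeddingLike.apply_eq_iff_eq, sub_self, norm_zero]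
      exact hε.le⟩)
  rwa [eι.symm.sum_comp (fun i => d.d (u i)), eκ.symm.sum_comp (fun j => d.d (v j))] at this

lemma dim_nonneg (d : Dim B) {v : F} (hv : PosIn B v) : 0 ≤ d.d v := by
  have := dim_mono_of d (ι := Fin 0) (κ := Unit) (u := Fin.elim0) (v := fun _ => v)
    (fun _ i => i.elim0) (fun i => i.elim0) (fun _ => hv) (fun _ i => i.elim0) (fun i => i.elim0)
  simpa using this

/-- Finitely many elements cover `u`. -/
lemma dim_cover (d : Dim B) {κ : Type} [Fintype κ] {u : F} {v : κ → F} (x : κ → F)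
    (hu : PosIn B u) (hv : ∀ j, PosIn B (v j)) (hx : ∀ j, x j ∈ B)
    (h : ∑ j, star (x j) * v j * x j = u) : d.d u ≤ ∑ j, d.d (v j) := by
  have := dim_mono_of d (ι := Unit) (u := fun _ => u) (v := v) (fun j _ => x j) (fun _ => hu) hv
    (fun j _ => hx j) (fun _ _ => by simpa using h)
  simpa using this

/-- An exactly orthogonal family of conjugates of `v` is below `v`. -/
lemma dim_orth (d : Dim B) {ι : Type} [Fintype ι] {u : ι → F} {v : F} (x : ι → F)
    (hv : PosIn B v) (hx : ∀ i, x i ∈ B) (hu : ∀ i, star (x i) * v * x i = u i)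
    (horth : ∀ i i', i ≠ i' → star (x i) * v * x i' = 0) : ∑ i, d.d (u i) ≤ d.d v := by
  classical
  have := dim_mono_of d (κ := Unit) (u := u) (v := fun _ => v) (fun _ i => x i)
    (fun i => hu i ▸ posIn_conj hv (hx i)) (fun _ => hv) (fun _ i => hx i) (fun i i' => by
      rcases eq_or_ne i i' with rfl | hne
      · simpa using hu i
      · simpa [hne] using horth i i' hne)
  simpa using this

variable {B' : StarSubalgebra ℂ F}

/-- The state of `B'` seen by a bank `φ`, weighted by `sq r`. -/
def pull [IsClosed (B' : Set F)] (d : Dim B) (φ : B' →⋆ₐ[ℂ] F) (hφ : ∀ b, φ b ∈ B) (r : F)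
    (hr : r ∈ B) (hc : ∀ b, Commute (φ b) r) (h0 : d.d (sq r) ≠ 0) : Dim B' where
  d u := by classical exact if h : u ∈ B' then d.d (φ ⟨u, h⟩ * sq r) / d.d (sq r) else 0
  one := by
    rw [dif_pos (one_mem B'), show φ ⟨1, one_mem B'⟩ = 1 from map_one φ, one_mul, div_self h0]
  mono := by
    intro n m u v hu hv hle
    simp only [(hu _).1, (hv _).1, dite_true, ← Finset.sum_div]
    refine div_le_div_of_nonneg_right ?_ (dim_nonneg d (posIn_sq hr))
    have hpos : ∀ w (h : PosIn B' w), PosIn B (φ ⟨w, h.1⟩ * sq r) := by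
      rintro w ⟨hw, c, hc', rfl⟩
      have : φ ⟨star c * c, hw⟩ * sq r = sq (φ ⟨c, hc'⟩ * r) := by
        rw [sq_mul_comm (hc _) (by rw [← map_star]; exact hc _)]
        simp only [sq, ← map_star, ← map_mul]
        rfl
      rw [this]
      exact posIn_sq (mul_mem (hφ _) hr)
    refine d.mono _ _ (fun i => hpos _ (hu i)) (fun j => hpos _ (hv j)) fun ε hε => ?_
    obtain ⟨x, hx, hxe⟩ := hle (ε / (‖sq r‖ + 1)) (by positivity)
    refine ⟨fun j i => φ ⟨x j i, hx j i⟩, fun j i => hφ _, fun i i' => ?_⟩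
    set z : B' := (∑ j, star (⟨x j i, hx j i⟩ : B') * ⟨v j, (hv j).1⟩ * ⟨x j i', hx j i'⟩) -
      (if i = i' then ⟨u i, (hu i).1⟩ else 0) with hz
    have hzn : ‖z‖ ≤ ε / (‖sq r‖ + 1) := by
      refine le_trans (le_of_eq ?_) (hxe i i')
      change ‖(z : F)‖ = _
      congr 1
      rw [hz, AddSubgroupClass.coe_sub, AddSubmonoidClass.coe_finsetSum]
      split_ifs <;> simp
    have key : (∑ j, star (φ ⟨x j i, hx j i⟩) * (φ ⟨v j, (hv j).1⟩ * sq r) * φ ⟨x j i', hx j i'⟩) -
        (if i = i' then φ ⟨u i, (hu i).1⟩ * sq r else 0) = φ z * sq r := by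
      have hcs : ∀ b, Commute (φ b) (sq r) := fun b =>
        ((show Commute (φ b) (star r) by
          have := (hc (star b)).star_star
          rwa [← map_star, star_star] at this).mul_right (hc b))
      rw [hz, map_sub, sub_mul, map_sum, Finset.sum_mul]
      congr 1
      · refine Finset.sum_congr rfl fun j _ => ?_
        rw [map_mul, map_mul, map_star]
        simp only [mul_assoc]
        rw [(hcs ⟨x j i', hx j i'⟩).symm.eq]
      · split_ifs <;> simp
    rw [key]
    refine (norm_mul_le _ _).trans ?_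
    calc ‖φ z‖ * ‖sq r‖ ≤ ε / (‖sq r‖ + 1) * (‖sq r‖ + 1) := by
          have := (NonUnitalStarAlgHom.norm_apply_le φ z).trans hzn
          gcongr
          linarith
      _ = ε := div_mul_cancel₀ _ (by positivity)

/-- A linear inequality valid for every state of `B'` holds for every bank, weighted by `sq r`. -/
lemma dim_bank [IsClosed (B' : Set F)] (d : Dim B) (φ : B' →⋆ₐ[ℂ] F) (hφ : ∀ b, φ b ∈ B) {r : F}
    (hr : r ∈ B) (hc : ∀ b, Commute (φ b) r) {ι : Type} [Fintype ι] (a : ℝ) (co : ι → ℝ)
    (c : ι → B') (h : ∀ D : Dim B', a ≤ ∑ i, co i * D.d (sq (c i : F))) :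
    a * d.d (sq r) ≤ ∑ i, co i * d.d (sq (φ (c i) * r)) := by
  have hs : ∀ i, sq (φ (c i) * r) = φ ⟨sq (c i : F), mul_mem (star_mem (c i).2) (c i).2⟩ * sq r := by
    intro i
    rw [sq_mul_comm (hc _) (by rw [← map_star]; exact hc _)]
    simp only [sq, ← map_star, ← map_mul]
    rfl
  by_cases h0 : d.d (sq r) = 0
  · have hz : ∀ i, d.d (sq (φ (c i) * r)) = 0 := by
      intro i
      refine le_antisymm ?_ (dim_nonneg d (posIn_sq (mul_mem (hφ _) hr)))
      rw [← h0]
      have := dim_cover d (κ := Unit) (u := sq (φ (c i) * r)) (v := fun _ => sq r)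
        (fun _ => φ (c i)) (posIn_sq (mul_mem (hφ _) hr)) (fun _ => posIn_sq hr) (fun _ => hφ _)
        (by simp [← sq_mul, (hc (c i)).eq])
      simpa using this
    simp [h0, hz]
  · have hp : 0 < d.d (sq r) := lt_of_le_of_ne (dim_nonneg d (posIn_sq hr)) (Ne.symm h0)
    have := h (pull d φ hφ r hr hc h0)
    simp only [pull] at this
    have hm : ∀ i, sq (c i : F) ∈ B' := fun i => mul_mem (star_mem (c i).2) (c i).2
    simp only [hm, dite_true, ← mul_div_assoc, ← Finset.sum_div, ← hs] at this
    rwa [le_div_iff₀ hp] at this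

end

end Vale.Agent.P095.Amen.Mixture
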