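import Vale.Agent.P095.Amen.Targets
import Vale.Agent.P095.Amen.Mixture.Dim
import Vale.Agent.P095.Amen.Mixture.Bins

/-!
# P095 mixture: induction over the banks
-/

namespace Vale.Agent.P095.Amen.Mixture

open Vale.Agent.P101.KR Finset

noncomputable section

lemma sum_fin_succ {β : Type} [Fintype β] {m : ℕ} (f : (Fin (m + 1) → β) → ℝ) :
    ∑ b, f b = ∑ b0 : β, ∑ b : Fin m → β, f (Fin.cons b0 b) := by
  rw [← (Fin.consEquiv fun _ => β).sum_comp, Fintype.sum_prod_type]
  rfl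

lemma prob3_zero (x y : ℝ) (v : Fin 0 → ℝ) (G : Set ℝ) :
    prob3 x y v G = G.indicator (fun _ => 1) 0 := by
  simp [prob3]

lemma prob3_succ {m : ℕ} (x y : ℝ) (v : Fin (m + 1) → ℝ) (G : Set ℝ) :
    prob3 x y v G = x * prob3 x y (fun j => v j.succ) {t | 1 + t ∈ G} +
      y * prob3 x y (fun j => v j.succ) {t | 0 + t ∈ G} +
      (1 - x - y) * prob3 x y (fun j => v j.succ) {t | v 0 + t ∈ G} := by
  classical
  simp only [prob3]
  rw [sum_fin_succ, Fin.sum_univ_three]
  simp only [mul_sum]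
  refine congrArg₂ (· + ·) (congrArg₂ (· + ·) ?_ ?_) ?_ <;>
  · refine sum_congr rfl fun p _ => ?_
    simp [Fin.prod_univ_succ, Fin.sum_univ_succ, Set.indicator_apply, mul_ite]

lemma prob3_nonneg {m : ℕ} {x y : ℝ} (hx : 0 ≤ x) (hy : 0 ≤ y) (hq : x + y ≤ 1) (v : Fin m → ℝ)
    (G : Set ℝ) : 0 ≤ prob3 x y v G := by
  refine sum_nonneg fun p _ => Set.indicator_nonneg (fun _ _ => prod_nonneg fun j _ => ?_) _
  generalize p j = i
  fin_cases i <;> simp <;> linarith

lemma prob3_le_one {m : ℕ} {x y : ℝ} (hx : 0 ≤ x) (hy : 0 ≤ y) (hq : x + y ≤ 1) (v : Fin m → ℝ)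
    (G : Set ℝ) : prob3 x y v G ≤ 1 := by
  have h1 : ∑ p : Fin m → Fin 3, ∏ j, (![x, y, 1 - x - y] : Fin 3 → ℝ) (p j) = 1 := by
    rw [← Fintype.prod_sum fun (_ : Fin m) i => (![x, y, 1 - x - y] : Fin 3 → ℝ) i]
    simp [Fin.sum_univ_three]
  refine le_of_le_of_eq (sum_le_sum fun p _ => ?_) h1
  refine Set.indicator_le_self' (fun _ _ => prod_nonneg fun j _ => ?_) _
  generalize p j = i
  fin_cases i <;> simp <;> linarith

variable {F : Type} [CStarAlgebra F] {B B' : StarSubalgebra ℂ F} [IsClosed (B' : Set F)]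

/-- The bins carry at least `A` per bank. -/
lemma bins_lower (d : Dim B) {β : Type} [Fintype β] (a : β → B') {A : ℝ} (hA : 0 ≤ A)
    (h : ∀ D : Dim B', A ≤ ∑ b, D.d (sq (a b : F))) :
    ∀ (m : ℕ) (φ : Fin m → B' →⋆ₐ[ℂ] F), Banks φ → (∀ j b, φ j b ∈ B) → ∀ r ∈ B,
      (∀ j b, Commute (φ j b) r) →
      A ^ m * d.d (sq r) ≤ ∑ b : Fin m → β, d.d (sq (bp φ (fun j => a (b j)) * r)) := by
  intro m
  induction m with
  | zero =>
    intro φ _ _ r _ _
    simp [bp_zero]
  | succ m ih =>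
    intro φ hφ hB r hr hc
    rw [sum_fin_succ, sum_comm, pow_succ', mul_assoc]
    refine (mul_le_mul_of_nonneg_left (ih _ hφ.tail (fun j => hB _) r hr fun j => hc _) hA).trans ?_
    rw [mul_sum]
    refine sum_le_sum fun b _ => ?_
    have hP : bp (fun j => φ j.succ) (fun j => a (b j)) * r ∈ B :=
      mul_mem (bp_mem _ _ fun j => hB j.succ) hr
    refine (dim_bank d (φ 0) (hB 0) hP (fun c => (hφ.head c _).mul_right (hc 0 c)) A (fun _ => 1) a
      fun D => by simpa using h D).trans (le_of_eq ?_)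
    refine sum_congr rfl fun b0 _ => ?_
    rw [one_mul, bp_succ, mul_assoc]
    simp

/-- The expansion of three-point laws into products of pieces. -/
lemma pieces_upper (d : Dim B) {K M : ℕ} (a : Fin K → Bool ⊕ Fin M → B') (v : Fin M → ℝ) {x y : ℝ}
    (hx0 : 0 ≤ x) (hy0 : 0 ≤ y) (hq0 : x + y ≤ 1)
    (hx : ∀ k, ∀ D : Dim B', x ≤ D.d (sq (a k (.inl true) : F)))
    (hy : ∀ k, ∀ D : Dim B', y ≤ D.d (sq (a k (.inl false) : F)))
    (hq : ∀ k, ∀ D : Dim B', ∑ i, D.d (sq (a k (.inr i) : F)) ≤ 1 - x - y) :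
    ∀ (m : ℕ) (φ : Fin m → B' →⋆ₐ[ℂ] F), Banks φ → (∀ j b, φ j b ∈ B) → ∀ r ∈ B,
      (∀ j b, Commute (φ j b) r) → ∀ G : Set ℝ,
      ∑ b : Fin m → Fin K × Fin M,
          d.d (sq (bp φ (fun j => a (b j).1 (.inr (b j).2)) * r)) *
            prob3 x y (fun j => v (b j).2) G ≤
        (1 - x - y) ^ m * ∑ l : Fin m → Fin K × (Bool ⊕ Fin M),
          G.indicator (fun _ => d.d (sq (bp φ (fun j => a (l j).1 (l j).2) * r)))
            (∑ j, lval v (l j).2) := by
  classical
  intro m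
  induction m with
  | zero =>
    intro φ _ _ r _ _ G
    simp [bp_zero, prob3_zero, Set.indicator_apply]
  | succ m ih =>
    intro φ hφ hB r hr hc G
    set q := 1 - x - y with hqdef
    have hq' : 0 ≤ q := by linarith
    set φ' := fun j : Fin m => φ j.succ
    set P : (Fin m → Fin K × (Bool ⊕ Fin M)) → F := fun l => bp φ' fun j => a (l j).1 (l j).2
    set up : (Fin m → Fin K × Fin M) → Fin m → Fin K × (Bool ⊕ Fin M) :=
      fun b j => ((b j).1, .inr (b j).2)
    set pr : ℝ → (Fin m → Fin K × Fin M) → ℝ :=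
      fun c b => prob3 x y (fun j => v (b j).2) {t | c + t ∈ G}
    set ind : ℝ → (Fin m → Fin K × (Bool ⊕ Fin M)) → ℝ → ℝ := fun c l w =>
      Set.indicator {t | c + t ∈ G} (fun _ => w) (∑ j, lval v (l j).2)
    have hL : ∑ b : Fin (m + 1) → Fin K × Fin M,
        d.d (sq (bp φ (fun j => a (b j).1 (.inr (b j).2)) * r)) *
          prob3 x y (fun j => v (b j).2) G =
        ∑ k, ∑ b, ((∑ i, d.d (sq (φ 0 (a k (.inr i)) * (P (up b) * r)))) * (x * pr 1 b + y * pr 0 b)
          + q * ∑ i, d.d (sq (φ 0 (a k (.inr i)) * (P (up b) * r))) * pr (v i) b) := by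
      rw [sum_fin_succ, Fintype.sum_prod_type]
      refine sum_congr rfl fun k _ => ?_
      rw [sum_comm]
      refine sum_congr rfl fun b _ => ?_
      rw [sum_mul, mul_sum, ← sum_add_distrib]
      refine sum_congr rfl fun i _ => ?_
      rw [prob3_succ, bp_succ, mul_assoc]
      simp only [Fin.cons_zero, Fin.cons_succ, pr, P, up, φ', hqdef]
      ring
    have hR : ∑ l : Fin (m + 1) → Fin K × (Bool ⊕ Fin M),
        G.indicator (fun _ => d.d (sq (bp φ (fun j => a (l j).1 (l j).2) * r)))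
          (∑ j, lval v (l j).2) =
        ∑ k, ((∑ l, ind 1 l (d.d (sq (φ 0 (a k (.inl true)) * (P l * r))))) +
          (∑ l, ind 0 l (d.d (sq (φ 0 (a k (.inl false)) * (P l * r))))) +
          ∑ i, ∑ l, ind (v i) l (d.d (sq (φ 0 (a k (.inr i)) * (P l * r))))) := by
      rw [sum_fin_succ, Fintype.sum_prod_type]
      refine sum_congr rfl fun k _ => ?_
      rw [Fintype.sum_sum_type, Fintype.sum_bool]
      refine congrArg₂ (· + ·) (congrArg₂ (· + ·) ?_ ?_) (sum_congr rfl fun i _ => ?_) <;>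
      · refine sum_congr rfl fun l _ => ?_
        rw [bp_succ, mul_assoc, Fin.sum_univ_succ]
        simp [ind, P, φ', lval, Set.indicator_apply]
    have hmem : ∀ l, P l * r ∈ B := fun l => mul_mem (bp_mem _ _ fun j => hB j.succ) hr
    have hcom : ∀ l c, Commute (φ 0 c) (P l * r) := fun l c => (hφ.head c _).mul_right (hc 0 c)
    have hup : ∀ k b, ∑ i, d.d (sq (φ 0 (a k (.inr i)) * (P (up b) * r))) ≤
        q * d.d (sq (P (up b) * r)) := fun k b => by
      have := dim_bank d (φ 0) (hB 0) (hmem (up b)) (hcom (up b)) (-q) (fun _ => (-1 : ℝ))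
        (fun i => a k (.inr i)) fun D => by simpa [neg_le_neg_iff] using hq k D
      simp only [neg_mul, one_mul, sum_neg_distrib, neg_le_neg_iff] at this
      exact this
    have hend : ∀ k t c, (∀ D : Dim B', c ≤ D.d (sq (a k t : F))) → ∀ l,
        c * d.d (sq (P l * r)) ≤ d.d (sq (φ 0 (a k t) * (P l * r))) := fun k t c h l => by
      have := dim_bank d (φ 0) (hB 0) (hmem l) (hcom l) c (fun _ : Unit => (1 : ℝ))
        (fun _ => a k t) fun D => by simpa using h D
      simpa using this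
    have hpr : ∀ c b, 0 ≤ pr c b := fun c b => prob3_nonneg hx0 hy0 hq0 _ _
    have hih : ∀ c, ∑ b, d.d (sq (P (up b) * r)) * pr c b ≤
        q ^ m * ∑ l, ind c l (d.d (sq (P l * r))) := fun c => by
      simpa [P, up, pr, ind] using
        ih φ' hφ.tail (fun j => hB _) r hr (fun j => hc _) {t | c + t ∈ G}
    have hih0 : ∀ k i, ∑ b, d.d (sq (φ 0 (a k (.inr i)) * (P (up b) * r))) * pr (v i) b ≤
        q ^ m * ∑ l, ind (v i) l (d.d (sq (φ 0 (a k (.inr i)) * (P l * r)))) := fun k i => by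
      have key : ∀ l, φ 0 (a k (.inr i)) * (P l * r) = P l * (φ 0 (a k (.inr i)) * r) := fun l => by
        rw [← mul_assoc, ← mul_assoc, (hφ.head _ _).eq]
      simp only [key]
      simpa [P, up, pr, ind] using ih φ' hφ.tail (fun j => hB _) (φ 0 (a k (.inr i)) * r)
        (mul_mem (hB 0 _) hr)
        (fun j b => (hφ j.succ 0 (Fin.succ_ne_zero j) b _).mul_right (hc _ b))
        {t | v i + t ∈ G}
    rw [hL, hR, mul_sum]
    refine sum_le_sum fun k _ => ?_
    rw [sum_add_distrib, ← mul_sum, sum_comm]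
    have h1 : ∀ c t e, 0 ≤ c → (∀ D : Dim B', c ≤ D.d (sq (a k t : F))) →
        ∑ b, (∑ i, d.d (sq (φ 0 (a k (.inr i)) * (P (up b) * r)))) * (c * pr e b) ≤
          q ^ (m + 1) * ∑ l, ind e l (d.d (sq (φ 0 (a k t) * (P l * r)))) := fun c t e hc0 hce => by
      calc ∑ b, (∑ i, d.d (sq (φ 0 (a k (.inr i)) * (P (up b) * r)))) * (c * pr e b)
          ≤ ∑ b, q * d.d (sq (P (up b) * r)) * (c * pr e b) :=
            sum_le_sum fun b _ => mul_le_mul_of_nonneg_right (hup k b) (mul_nonneg hc0 (hpr e b))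
        _ = q * c * ∑ b, d.d (sq (P (up b) * r)) * pr e b := by
            rw [mul_sum]; exact sum_congr rfl fun b _ => by ring
        _ ≤ q * c * (q ^ m * ∑ l, ind e l (d.d (sq (P l * r)))) :=
            mul_le_mul_of_nonneg_left (hih e) (mul_nonneg hq' hc0)
        _ = q ^ (m + 1) * ∑ l, c * ind e l (d.d (sq (P l * r))) := by rw [← mul_sum]; ring
        _ ≤ _ := mul_le_mul_of_nonneg_left (sum_le_sum fun l _ => by
            simp only [ind, Set.indicator_apply]
            split_ifs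
            · exact hend k t c hce l
            · rw [mul_zero]) (pow_nonneg hq' _)
    have h2 : q * ∑ i, ∑ b, d.d (sq (φ 0 (a k (.inr i)) * (P (up b) * r))) * pr (v i) b ≤
        q ^ (m + 1) * ∑ i, ∑ l, ind (v i) l (d.d (sq (φ 0 (a k (.inr i)) * (P l * r)))) := by
      rw [mul_sum, mul_sum, pow_succ']
      exact sum_le_sum fun i _ => by
        rw [mul_assoc]; exact mul_le_mul_of_nonneg_left (hih0 k i) hq'
    simp only [mul_add, sum_add_distrib]
    exact add_le_add (add_le_add (h1 x _ _ hx0 (hx k)) (h1 y _ _ hy0 (hy k))) h2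

end

end Vale.Agent.P095.Amen.Mixture
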