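import Vale.Agent.P095.Amen.Defs

/-!
# P095 mixture: localisation of products over commuting banks
-/

namespace Vale.Agent.P095.Amen.Mixture

open Vale.Agent.P101.KR

noncomputable section

variable {E F : Type} [CStarAlgebra E] [CStarAlgebra F]

/-- A function vanishing with a margin where `w` lives kills `w`. -/
lemma cfc_kill {T w : E} (hT : IsSelfAdjoint T) {φ h : ℝ → ℝ} (hφ : Continuous φ)
    (hh : Continuous h) {c : ℝ} (hc : 0 < c) (hv : ∀ t, h t ≠ 0 → c ≤ 1 - φ t)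
    (hw : cfc φ T * w = w) : cfc h T * w = 0 := by
  set q : ℝ → ℝ := fun t => h t / max (1 - φ t) c
  have hq : Continuous q := hh.div ((continuous_const.sub hφ).max continuous_const) fun t =>
    (lt_max_of_lt_right hc).ne'
  have he : h = fun t => q t * (1 - φ t) := by
    funext t
    by_cases h0 : h t = 0
    · simp [q, h0]
    · have := hv t h0
      simp only [q, max_eq_left this]
      rw [div_mul_cancel₀]
      linarith
  rw [he, cfc_mul q (fun t => 1 - φ t) T (hq.continuousOn) ((continuous_const.sub hφ).continuousOn),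
    mul_assoc, cfc_sub (fun _ => 1) φ T continuousOn_const hφ.continuousOn, cfc_const_one ℝ T,
    sub_mul, one_mul, hw, sub_self, mul_zero]

/-- `a` is supported where `t` is within `r` of `v`. -/
def Loc (t a : E) (v r C : ℝ) : Prop :=
  ∀ n : ℕ, ‖(t - algebraMap ℝ E v) ^ n * a‖ ≤ C * r ^ n

lemma loc_of_fun {t : E} (ht : IsSelfAdjoint t) {g : ℝ → ℝ} (hg : Continuous g) {v r : ℝ}
    (hr : 0 ≤ r) (h1 : ∀ s, |g s| ≤ 1) (hs : ∀ s ∈ spectrum ℝ t, g s ≠ 0 → |s - v| ≤ r) (b : E) :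
    Loc t (cfc g t * b) v r ‖b‖ := by
  intro n
  rw [← mul_assoc, show t - algebraMap ℝ E v = cfc (fun s : ℝ => s - v) t by
      rw [cfc_sub (fun s : ℝ => s) (fun _ => v) t, cfc_id' ℝ t, cfc_const v t],
    ← cfc_pow (fun s : ℝ => s - v) n t, ← cfc_mul (fun s : ℝ => (s - v) ^ n) g t
      (by fun_prop) hg.continuousOn, mul_comm ‖b‖]
  refine (norm_mul_le _ _).trans (mul_le_mul_of_nonneg_right ?_ (norm_nonneg b))
  refine norm_cfc_le (pow_nonneg hr n) fun s hs' => ?_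
  rw [Real.norm_eq_abs, abs_mul, abs_pow]
  by_cases h0 : g s = 0
  · simp [h0, pow_nonneg hr n]
  · calc |s - v| ^ n * |g s| ≤ r ^ n * 1 :=
          mul_le_mul (pow_le_pow_left₀ (abs_nonneg _) (hs s hs' h0) n) (h1 s) (abs_nonneg _)
            (pow_nonneg hr n)
      _ = r ^ n := mul_one _

/-- The product over the banks. -/
def bp {m : ℕ} (φ : Fin m → E →⋆ₐ[ℂ] F) (a : Fin m → E) : F :=
  (List.ofFn fun j => φ j (a j)).prod

lemma bp_zero (φ : Fin 0 → E →⋆ₐ[ℂ] F) (a : Fin 0 → E) : bp φ a = 1 := by simp [bp]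

lemma bp_succ {m : ℕ} (φ : Fin (m + 1) → E →⋆ₐ[ℂ] F) (a : Fin (m + 1) → E) :
    bp φ a = φ 0 (a 0) * bp (fun j => φ j.succ) (fun j => a j.succ) := by
  simp [bp, List.ofFn_succ]

lemma bp_commute {m : ℕ} (φ : Fin m → E →⋆ₐ[ℂ] F) (a : Fin m → E) {z : F}
    (h : ∀ j, Commute z (φ j (a j))) : Commute z (bp φ a) := by
  induction m with
  | zero => rw [bp_zero]; exact Commute.one_right z
  | succ m ih =>
    rw [bp_succ]
    exact (h 0).mul_right (ih _ _ fun j => h j.succ)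

lemma bp_mem {B : StarSubalgebra ℂ F} {m : ℕ} (φ : Fin m → E →⋆ₐ[ℂ] F) (a : Fin m → E)
    (h : ∀ j b, φ j b ∈ B) : bp φ a ∈ B := by
  induction m with
  | zero => rw [bp_zero]; exact one_mem B
  | succ m ih =>
    rw [bp_succ]
    exact mul_mem (h 0 _) (ih _ _ fun j => h j.succ)

/-- Pairwise commuting banks. -/
def Banks {m : ℕ} (φ : Fin m → E →⋆ₐ[ℂ] F) : Prop :=
  ∀ i j, i ≠ j → ∀ a b, Commute (φ i a) (φ j b)

lemma Banks.tail {m : ℕ} {φ : Fin (m + 1) → E →⋆ₐ[ℂ] F} (h : Banks φ) :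
    Banks fun j : Fin m => φ j.succ := fun _ _ hij => h _ _ fun he => hij (Fin.succ_inj.1 he)

lemma Banks.head {m : ℕ} {φ : Fin (m + 1) → E →⋆ₐ[ℂ] F} (h : Banks φ) (b : E) (a : Fin m → E) :
    Commute (φ 0 b) (bp (fun j => φ j.succ) a) :=
  bp_commute _ _ fun j => h 0 j.succ (Fin.succ_ne_zero j).symm _ _

lemma bp_mul {m : ℕ} {φ : Fin m → E →⋆ₐ[ℂ] F} (h : Banks φ) (a b : Fin m → E) :
    bp φ a * bp φ b = bp φ fun j => a j * b j := by
  induction m with
  | zero => simp [bp_zero]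
  | succ m ih =>
    rw [bp_succ φ a, bp_succ φ b, bp_succ φ, ← ih h.tail, map_mul,
      Commute.mul_mul_mul_comm (h.head _ _).symm]

lemma bp_star {m : ℕ} {φ : Fin m → E →⋆ₐ[ℂ] F} (h : Banks φ) (a : Fin m → E) :
    star (bp φ a) = bp φ fun j => star (a j) := by
  induction m with
  | zero => simp [bp_zero]
  | succ m ih =>
    rw [bp_succ φ a, bp_succ φ, star_mul, ih h.tail, ← map_star, (h.head _ _).eq]

lemma bp_eq_zero {m : ℕ} (φ : Fin m → E →⋆ₐ[ℂ] F) (a : Fin m → E) (j : Fin m) (h : a j = 0) :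
    bp φ a = 0 :=
  List.prod_eq_zero ((List.mem_ofFn' _ _).2 ⟨j, by simp [h]⟩)

lemma bp_const_one {m : ℕ} (φ : Fin m → E →⋆ₐ[ℂ] F) : bp φ (fun _ => (1 : E)) = 1 := by
  simp [bp]

lemma bp_loc (t : E) {r C : ℝ} (hr : 0 ≤ r) (hC : 0 ≤ C) :
    ∀ {m : ℕ} {φ : Fin m → E →⋆ₐ[ℂ] F}, Banks φ → ∀ (a : Fin m → E) (v : Fin m → ℝ),
      (∀ j, Loc t (a j) (v j) r C) → ∀ n : ℕ,
      ‖(∑ j, (φ j t - algebraMap ℝ F (v j))) ^ n * bp φ a‖ ≤
        ‖(1 : F)‖ * C ^ m * ((m : ℝ) * r) ^ n := by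
  intro m
  induction m with
  | zero =>
    intro φ _ a v _ n
    cases n <;> simp [bp_zero]
  | succ m ih =>
    intro φ hφ a v ha n
    set U := φ 0 t - algebraMap ℝ F (v 0) with hU
    set V := ∑ j : Fin m, (φ j.succ t - algebraMap ℝ F (v j.succ))
    have hUV : Commute U V := Commute.sum_right _ _ _ fun j _ =>
      (((hφ 0 j.succ (Fin.succ_ne_zero j).symm t t).sub_left
        (Algebra.commutes (v 0) _)).sub_right (Algebra.commutes (v j.succ) U).symm)
    have haV : Commute (φ 0 (a 0)) V := Commute.sum_right _ _ _ fun j _ =>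
      ((hφ 0 j.succ (Fin.succ_ne_zero j).symm _ t).sub_right (Algebra.commutes (v j.succ) _).symm)
    have hU' : ∀ i : ℕ, ‖U ^ i * φ 0 (a 0)‖ ≤ C * r ^ i := fun i => by
      have h0 : φ 0 (algebraMap ℝ E (v 0)) = algebraMap ℝ F (v 0) :=
        ((φ 0).toAlgHom.restrictScalars ℝ).commutes (v 0)
      rw [hU, ← h0, ← map_sub, ← map_pow, ← map_mul]
      exact (NonUnitalStarAlgHom.norm_apply_le _ _).trans (ha 0 i)
    rw [Fin.sum_univ_succ, hUV.add_pow, Finset.sum_mul]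
    refine (norm_sum_le _ _).trans (le_trans (Finset.sum_le_sum fun i _ =>
      (?_ : _ ≤ (C * r ^ i) * (‖(1 : F)‖ * C ^ m * ((m : ℝ) * r) ^ (n - i)) *
        (n.choose i : ℝ))) (le_of_eq ?_))
    · rw [bp_succ, (Nat.cast_commute _ _).symm.eq, mul_assoc, mul_assoc (U ^ i),
        ← mul_assoc (V ^ (n - i)), (haV.pow_right (n - i)).symm.eq, mul_assoc (φ 0 (a 0)),
        ← mul_assoc (U ^ i), ← nsmul_eq_mul, mul_comm _ (n.choose i : ℝ)]
      refine norm_nsmul_le.trans (mul_le_mul_of_nonneg_left ?_ (Nat.cast_nonneg _))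
      exact (norm_mul_le _ _).trans (mul_le_mul (hU' i) (ih hφ.tail _ _ (fun j => ha j.succ) _)
        (norm_nonneg _) (by positivity))
    · have : ((m + 1 : ℕ) : ℝ) * r = r + (m : ℝ) * r := by push_cast; ring
      rw [this, add_pow, Finset.mul_sum]
      exact Finset.sum_congr rfl fun i _ => by ring

lemma loc_zero {u P : F} (hu : IsSelfAdjoint u) {ρ μ C M : ℝ} (hρ : 0 ≤ ρ) (hμ : ρ < μ)
    (hP : ∀ n : ℕ, ‖u ^ n * P‖ ≤ C * ρ ^ n) {φ : ℝ → ℝ} (hφ : Continuous φ)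
    (hM : ∀ t, |φ t| ≤ M) (hv : ∀ t, |t| ≤ μ → φ t = 0) : cfc φ u * P = 0 := by
  have hμ0 : 0 < μ := hρ.trans_lt hμ
  have hM0 : 0 ≤ M := (abs_nonneg _).trans (hM 0)
  have key : ∀ n : ℕ, ‖cfc φ u * P‖ ≤ M * C * ((ρ / μ) ^ 2) ^ n := by
    intro n
    set q : ℝ → ℝ := fun t => φ t / max (t ^ (2 * n)) (μ ^ (2 * n))
    have hq : Continuous q := hφ.div ((continuous_pow _).max continuous_const) fun t =>
      (lt_max_of_lt_right (pow_pos hμ0 _)).ne'
    have he : φ = fun t => q t * t ^ (2 * n) := by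
      funext t
      rcases le_or_gt |t| μ with h | h
      · simp [q, hv t h]
      · have h1 : μ ^ (2 * n) ≤ t ^ (2 * n) := by
          rw [pow_mul, pow_mul t, ← sq_abs t]
          exact pow_le_pow_left₀ (sq_nonneg μ) (pow_le_pow_left₀ hμ0.le h.le 2) n
        simp only [q, max_eq_left h1]
        rw [div_mul_cancel₀]
        exact ((pow_pos hμ0 _).trans_le h1).ne'
    rw [he, cfc_mul q (fun t => t ^ (2 * n)) u hq.continuousOn (by fun_prop),
      cfc_pow_id u (2 * n), mul_assoc]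
    refine (norm_mul_le _ _).trans ?_
    calc ‖cfc q u‖ * ‖u ^ (2 * n) * P‖ ≤ (M / μ ^ (2 * n)) * (C * ρ ^ (2 * n)) := by
          refine mul_le_mul ?_ (hP _) (norm_nonneg _) (by positivity)
          refine norm_cfc_le (by positivity) fun t _ => ?_
          rw [Real.norm_eq_abs, abs_div, abs_of_pos (lt_max_of_lt_right (pow_pos hμ0 _))]
          exact div_le_div₀ hM0 (hM t) (pow_pos hμ0 _) (le_max_right _ _)
      _ = M * C * ((ρ / μ) ^ 2) ^ n := by rw [← pow_mul, div_pow]; ring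
  refine norm_le_zero_iff.1 (ge_of_tendsto' (x := Filter.atTop) ?_ key)
  simpa using (tendsto_pow_atTop_nhds_zero_of_lt_one (sq_nonneg _)
    (pow_lt_one₀ (by positivity) ((div_lt_one hμ0).2 hμ) two_ne_zero)).const_mul (M * C)

end

end Vale.Agent.P095.Amen.Mixture
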